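import Mathlib.GroupTheory.CosetCover
import Mathlib.Order.Filter.Ultrafilter.Basic
import Mathlib.Order.Filter.Cofinite
import Mathlib.GroupTheory.OrderOfElement
import Mathlib.GroupTheory.Finiteness
import Mathlib.Tactic.Group

/-!
# A finitely generated group covered by conjugates of finitely many cyclic groups, with more
than one end, is virtually cyclic
-/

namespace Vale.Agent.P216TE
open Set Filter
open scoped Pointwise

variable {G : Type*} [Group G]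

/-- `A` is almost invariant under right multiplication. -/
def AI (A : Set G) : Prop := ∀ s : G, {u | ¬ (u ∈ A ↔ u * s ∈ A)}.Finite

lemma AI.compl {A : Set G} (h : AI A) : AI Aᶜ := fun s =>
  (h s).subset fun u hu => by
    simp only [mem_ofPred_eq, mem_compl_iff] at hu ⊢; tauto

/-- An infinite almost invariant set inside finitely many two-sided cosets of cyclic groups. -/
lemma AI.vc {B : Set G} (h : AI B) (hB : B.Infinite) {T : Set (G × G × G)} (hT : T.Finite)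
    (hc : ∀ b ∈ B, ∃ t ∈ T, ∃ k : ℤ, b = t.1 * t.2.1 ^ k * t.2.2) :
    ∃ c : G, (Subgroup.zpowers c).FiniteIndex := by
  classical
  have : (cofinite ⊓ 𝓟 B).NeBot := by
    rw [← frequently_mem_iff_neBot]; exact frequently_cofinite_iff_infinite.2 hB
  set U := Ultrafilter.of (cofinite ⊓ 𝓟 B)
  have hU : (U : Filter G) ≤ cofinite ⊓ 𝓟 B := Ultrafilter.of_le _
  have key : ∀ x : G, ∃ t ∈ T, {e | ∃ k : ℤ, e * x = t.1 * t.2.1 ^ k * t.2.2} ∈ U := by
    intro x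
    have h1 : {e | e * x ∈ B} ∈ U := by
      apply hU
      have a1 : {u | ¬ (u ∈ B ↔ u * x ∈ B)}ᶜ ∈ cofinite := (h x).compl_mem_cofinite
      filter_upwards [mem_inf_of_left a1, mem_inf_of_right (mem_principal_self B)] with e he hb
      simp only [mem_compl_iff, mem_ofPred_eq, not_not] at he
      exact he.1 hb
    have h2 : (⋃ t ∈ T, {e | ∃ k : ℤ, e * x = t.1 * t.2.1 ^ k * t.2.2}) ∈ U := by
      refine mem_of_superset h1 fun e he => ?_
      obtain ⟨t, ht, k, hk⟩ := hc _ he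
      exact mem_biUnion ht ⟨k, hk⟩
    exact (Ultrafilter.finite_biUnion_mem_iff hT).1 h2
  choose τ hτ hτU using key
  let g : G × G × G → G := fun t => if h : ∃ x, τ x = t then h.choose else 1
  have cov : ⋃ t ∈ hT.toFinset, g t • ((Subgroup.zpowers (t.2.2⁻¹ * t.2.1 * t.2.2) : Subgroup G) :
      Set G) = univ := by
    refine eq_univ_of_forall fun x => mem_biUnion (x := τ x) (by simpa using hτ x) ?_
    have hx : ∃ y, τ y = τ x := ⟨x, rfl⟩
    have e1 : g (τ x) = hx.choose := dif_pos hx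
    have e2 := hτU hx.choose
    rw [hx.choose_spec] at e2
    obtain ⟨e, ⟨k, hk⟩, l, hl⟩ := Filter.nonempty_of_mem (inter_mem e2 (hτU x))
    rw [mem_leftCoset_iff, e1]
    refine ⟨l - k, ?_⟩
    have : hx.choose⁻¹ * x = (e * hx.choose)⁻¹ * (e * x) := by group
    rw [this, hk, hl]
    have c := conj_zpow (a := (τ x).2.2⁻¹) (b := (τ x).2.1) (i := l - k)
    simp only [inv_inv] at c
    simp only [c]
    group
  obtain ⟨t, -, ht⟩ := Subgroup.exists_finiteIndex_of_leftCoset_cover cov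
  exact ⟨_, ht⟩

lemma nest_pow {A : Set G} {g : G} (h : ∀ u ∈ A, g * u ∈ A) (n : ℕ) :
    ∀ u ∈ A, g ^ n * u ∈ A := by
  induction n with
  | zero => simp
  | succ n ih => intro u hu; rw [pow_succ', mul_assoc]; exact h _ (ih u hu)

/-- If `g A ⊊ A` then every backward orbit of `g` leaves `A`. -/
lemma AI.leave {A : Set G} (hA : AI A) {g : G} (h : ∀ u ∈ A, g * u ∈ A) {v : G} (hv : v ∈ A)
    (hv' : g⁻¹ * v ∉ A) (w : G) : ∃ n : ℕ, (g ^ n)⁻¹ * w ∉ A := by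
  by_contra hw
  push Not at hw
  have inf : ¬ IsOfFinOrder g := by
    rw [isOfFinOrder_iff_pow_eq_one]
    rintro ⟨n, hn, e⟩
    obtain ⟨m, rfl⟩ := Nat.exists_eq_succ_of_ne_zero hn.ne'
    apply hv'
    have : g⁻¹ = g ^ m := by rw [inv_eq_iff_mul_eq_one, ← pow_succ', e]
    rw [this]; exact nest_pow h m v hv
  have inj : Function.Injective fun n : ℕ => (g ^ n)⁻¹ * w := fun a b e => by
    have : g ^ a = g ^ b := by simpa using e
    exact injective_pow_iff_not_isOfFinOrder.2 inf this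
  refine (hA (w⁻¹ * (g⁻¹ * v))).not_infinite
    (infinite_of_injective_forall_mem inj fun n => ?_)
  simp only [mem_ofPred_eq]
  intro e
  apply hv'
  have := nest_pow h n _ (e.1 (hw n))
  simpa [mul_assoc] using this

/-- A line meeting both sides passes through the finite coboundary. -/
lemma cross {A : Set G} {a w : G} {i j : ℤ} (hi : w * a ^ i ∈ A) (hj : w * a ^ j ∉ A) :
    ∃ n : ℤ, ¬ (w * a ^ n ∈ A ↔ w * a ^ n * a ∈ A) := by
  by_contra hc
  push Not at hc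
  have : ∀ n : ℤ, (w * a ^ n ∈ A ↔ w * a ^ (0 : ℤ) ∈ A) := by
    intro n
    induction n using Int.induction_on with
    | zero => rfl
    | succ n ih => rw [← ih, hc n, zpow_add_one, mul_assoc]
    | pred n ih => rw [← ih, hc (-n - 1), mul_assoc, ← zpow_add_one]; simp
  exact hj ((this j).2 ((this i).1 hi))

lemma AI.hyp {A : Set G} (hA : AI A) {F : Set G} (hF : ∀ g : G, ∃ a ∈ F, ∃ k : ℤ, IsConj g (a ^ k))
    {g : G} (h : ∀ u ∈ A, g * u ∈ A) {v : G} (hv : v ∈ A) (hv' : g⁻¹ * v ∉ A) :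
    ∃ a ∈ F, ∃ u, ¬ (u ∈ A ↔ u * a ∈ A) ∧ ∃ k : ℤ, g = u * a ^ k * u⁻¹ := by
  obtain ⟨a, ha, k, hk⟩ := hF g
  obtain ⟨w, hw⟩ := isConj_iff.1 hk.symm
  obtain ⟨n, hn⟩ := hA.leave h hv hv' w
  obtain ⟨m, hm⟩ := hA.compl.leave (g := g⁻¹) (v := g⁻¹ * v)
    (fun u hu hu' => hu (by simpa using h _ hu')) hv' (by simpa using hv) w
  have pw : ∀ i : ℤ, g ^ i * w = w * a ^ (k * i) := fun i => by
    rw [← hw, conj_zpow, ← zpow_mul]; group
  have h1 : w * a ^ (k * m) ∈ A := by rw [← pw]; simpa using hm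
  have h2 : w * a ^ (k * (-n)) ∉ A := by rw [← pw]; simpa using hn
  obtain ⟨i, hi⟩ := cross h1 h2
  exact ⟨a, ha, _, hi, k, by rw [← hw]; group⟩

/-- Nesting. -/
lemma nest {S K : Set G} (hS : Subgroup.closure S = ⊤) {A₁ A₂ : Set G} (h1 : (1 : G) ∈ K)
    (k1 : ∀ s, s ∈ S ∨ s⁻¹ ∈ S → ∀ u, ¬ (u ∈ A₁ ↔ u * s ∈ A₁) → u ∈ K)
    (k2 : ∀ s, s ∈ S ∨ s⁻¹ ∈ S → ∀ u, ¬ (u ∈ A₂ ↔ u * s ∈ A₂) → u ∈ K) {g : G}
    (g1 : ∀ k ∈ K, g * k ∈ A₁) (g2 : ∀ k ∈ K, g⁻¹ * k ∉ A₂) : ∀ u ∈ A₂, g * u ∈ A₁ := by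
  intro u hu
  by_contra hu'
  have step : ∀ s, s ∈ S ∨ s⁻¹ ∈ S → ∀ y, y ∈ A₂ ∧ g * y ∉ A₁ → y * s ∈ A₂ ∧ g * (y * s) ∉ A₁ := by
    rintro s hs y ⟨a, b⟩
    refine ⟨by_contra fun c => b (g1 _ (k2 s hs y (by tauto))), fun c => ?_⟩
    have := g2 _ (k1 s hs (g * y) (by rw [mul_assoc]; tauto))
    exact this (by simpa using a)
  have all : ∀ x : G, u * x ∈ A₂ ∧ g * (u * x) ∉ A₁ := by
    intro x
    have hx : x ∈ Subgroup.closure S := hS ▸ Subgroup.mem_top x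
    induction hx using Subgroup.closure_induction_right with
    | one => simpa using ⟨hu, hu'⟩
    | mul_right x _ s hs ih => rw [← mul_assoc]; exact step s (.inl hs) _ ih
    | mul_inv_cancel x _ s hs ih =>
      rw [← mul_assoc]; exact step s⁻¹ (.inr (by simpa using hs)) _ ih
  have := (all (u⁻¹ * g⁻¹)).1
  exact g2 1 h1 (by simpa using this)

/-- **Ends.** A finitely generated group, every element of which is conjugate into one of finitely
many cyclic groups, with an almost invariant infinite co-infinite subset, is virtually cyclic. -/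
theorem vc_of_ends [hG : Group.FG G] {F : Set G} (hFf : F.Finite)
    (hF : ∀ g : G, ∃ a ∈ F, ∃ k : ℤ, IsConj g (a ^ k)) {A : Set G} (hA : AI A)
    (h1 : A.Infinite) (h2 : Aᶜ.Infinite) : ∃ c : G, (Subgroup.zpowers c).FiniteIndex := by
  obtain ⟨S, hS, hSf⟩ := Group.fg_iff.1 hG
  set K : Set G := insert 1 (⋃ s ∈ S ∪ S⁻¹, {u | ¬ (u ∈ A ↔ u * s ∈ A)}) with hK
  have hKf : K.Finite := ((hSf.union hSf.inv).biUnion fun s _ => hA s).insert _
  have k1 : ∀ s, s ∈ S ∨ s⁻¹ ∈ S → ∀ u, ¬ (u ∈ A ↔ u * s ∈ A) → u ∈ K := fun s hs u hu =>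
    .inr (mem_biUnion (x := s) hs hu)
  have k2 : ∀ s, s ∈ S ∨ s⁻¹ ∈ S → ∀ u, ¬ (u ∈ Aᶜ ↔ u * s ∈ Aᶜ) → u ∈ K := fun s hs u hu =>
    k1 s hs u (by simp only [mem_compl_iff] at hu; tauto)
  set D : Set G := ⋃ k ∈ K, {u | ¬ (u ∈ A ↔ u * k ∈ A)}
  have hD : (D ∪ D⁻¹).Finite := by
    have : D.Finite := hKf.biUnion fun s _ => hA s
    exact this.union this.inv
  have far : ∀ g, g ∉ D → ∀ k ∈ K, (g ∈ A ↔ g * k ∈ A) := fun g hg k hk =>
    by_contra fun c => hg (mem_biUnion hk c)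
  have o : (1 : G) ∈ K := mem_insert _ _
  set T₀ : Set (G × G) := ⋃ a ∈ F, {u | ¬ (u ∈ A ↔ u * a ∈ A)} ×ˢ {a}
  have hT₀ : T₀.Finite := hFf.biUnion fun a _ => (hA a).prod (finite_singleton a)
  have hT : ∀ h : G, ((fun x : G => ((x, 1, 1) : G × G × G)) '' (D ∪ D⁻¹) ∪
      ((fun p : G × G => (p.1, p.2, p.1⁻¹)) '' T₀ ∪
        (fun p : G × G => (p.1, p.2, p.1⁻¹ * h)) '' T₀)).Finite := fun h =>
    (hD.image _).union ((hT₀.image _).union (hT₀.image _))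
  by_cases hh : ∃ h, h ∉ D ∪ D⁻¹ ∧ h ∉ A ∧ h⁻¹ ∉ A
  · obtain ⟨h, hd, ha, hb⟩ := hh
    simp only [mem_union, mem_inv, not_or] at hd
    have nh : ∀ u ∈ A, h * u ∈ Aᶜ := nest hS o k2 k1
      (fun k hk c => ha ((far h hd.1 k hk).2 c)) (fun k hk c => hb ((far _ hd.2 k hk).2 c))
    refine hA.vc h1 (hT h⁻¹) fun g hg => ?_
    by_cases hgd : g ∈ D ∪ D⁻¹
    · exact ⟨_, .inl ⟨g, hgd, rfl⟩, 0, by simp⟩
    simp only [mem_union, mem_inv, not_or] at hgd
    by_cases hg' : g⁻¹ ∈ A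
    · have ng : ∀ u ∈ Aᶜ, g * u ∈ A := nest hS o k1 k2
        (fun k hk => (far g hgd.1 k hk).1 hg) (fun k hk c => c ((far _ hgd.2 k hk).1 hg'))
      have n : ∀ u ∈ A, g * h * u ∈ A := fun u hu => by rw [mul_assoc]; exact ng _ (nh u hu)
      obtain ⟨v, hv, hv'⟩ : ∃ v ∈ A, (g * h)⁻¹ * v ∉ A := by
        by_cases c : (1 : G) ∈ A
        · exact ⟨1, c, fun e => nh _ e (by simpa using hg')⟩
        · exact ⟨g, hg, by simpa using hb⟩
      obtain ⟨a, ha, u, hu, k, hk⟩ := hA.hyp hF n hv hv'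
      refine ⟨_, .inr (.inr ⟨(u, a), mem_biUnion ha ⟨hu, rfl⟩, rfl⟩), k, ?_⟩
      simp only [← mul_assoc, ← hk]; simp
    · have ng : ∀ u ∈ A, g * u ∈ A := nest hS o k1 k1
        (fun k hk => (far g hgd.1 k hk).1 hg) (fun k hk c => hg' ((far _ hgd.2 k hk).2 c))
      obtain ⟨v, hv, hv'⟩ : ∃ v ∈ A, g⁻¹ * v ∉ A := by
        by_cases c : (1 : G) ∈ A
        · exact ⟨1, c, by simpa using hg'⟩
        · exact ⟨g, hg, by simpa using c⟩
      obtain ⟨a, ha, u, hu, k, hk⟩ := hA.hyp hF ng hv hv'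
      exact ⟨_, .inr (.inl ⟨(u, a), mem_biUnion ha ⟨hu, rfl⟩, rfl⟩), k, hk⟩
  · push Not at hh
    refine hA.compl.vc h2 (hT 1) fun g hg => ?_
    by_cases hgd : g ∈ D ∪ D⁻¹
    · exact ⟨_, .inl ⟨g, hgd, rfl⟩, 0, by simp⟩
    have hg' := hh g hgd hg
    simp only [mem_union, mem_inv, not_or] at hgd
    have ng : ∀ u ∈ Aᶜ, g * u ∈ Aᶜ := nest hS o k2 k2
      (fun k hk c => hg ((far g hgd.1 k hk).2 c)) (fun k hk c => c ((far _ hgd.2 k hk).1 hg'))
    obtain ⟨v, hv, hv'⟩ : ∃ v ∈ Aᶜ, g⁻¹ * v ∉ Aᶜ := by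
      by_cases c : (1 : G) ∈ A
      · exact ⟨g, hg, by simpa using c⟩
      · exact ⟨1, c, by simpa using hg'⟩
    obtain ⟨a, ha, u, hu, k, hk⟩ := hA.compl.hyp hF ng hv hv'
    refine ⟨_, .inr (.inl ⟨(u, a), mem_biUnion ha ⟨?_, rfl⟩, rfl⟩), k, hk⟩
    simp only [mem_compl_iff, mem_ofPred_eq] at hu ⊢; tauto

end Vale.Agent.P216TE
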