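import Vale.Agent.P216T.Defs
import Vale.Agent.P216M.Ext
import Vale.Agent.P216.H787.Cls
import Vale.Agent.P216TE.Ends

/-!
# P216TE: statements of the blocks
-/

set_option linter.all false

namespace Vale.Agent.P216TE

open Set Vale.Agent.P216T Vale.Agent.P216M Vale.Agent.P216.Sl

/-- All central extensions of `H` by `k` split. -/
def Split (H k : Type) [Group H] [AddCommGroup k] : Prop :=
  ∀ σ : Cocy H k, ∃ t : H → k, ∀ g h, σ.f g h = t g + t h - t (g * h)

/-- `H¹ (G; k[G/H]) = 0`. -/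
def EndQ {G : Type} [Group G] (H : Subgroup G) (k : Type) [AddCommGroup k] : Prop :=
  ∀ θ : G → k, (∀ h ∈ H, ∀ g g', θ (g * h) - θ g = θ (g' * h) - θ g') →
    (∀ s, ((fun g : G => (g : G ⧸ H)) '' {g | θ (s * g) ≠ θ g}).Finite) →
    (∀ h ∈ H, ∀ g, θ (g * h) = θ g) ∧ ∃ t, ((fun g : G => (g : G ⧸ H)) '' {g | θ g ≠ t}).Finite

/-- The top cohomology with coefficients in `k` is not zero. -/
def TopCl (N k : Type) [MetricSpace N] [Field k] : Prop :=
  ∃ w : List N → k, CocL (univ : Set N) 3 w ∧ ¬ ExL (univ : Set N) 3 w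

/-- **ORI**: the orientation covering. -/
def OriGoal : Prop :=
  ∀ (p : ℕ) [Fact p.Prime] (G : Type) [Group G] (N : Type) [TopologicalSpace N] [T2Space N]
    [CompactSpace N] [ChartedSpace E3 N], InC G N → ∃ (χ : G →* (ZMod p)ˣ) (N' : Type)
      (_ : MetricSpace N') (_ : CompactSpace N') (_ : ChartedSpace E3 N'),
      InC χ.ker N' ∧ TopCl N' (ZMod p) ∧ TopCl N' (ZMod 2)

/-- **BSG**: the group theory of the Baumslag-Solitar relation. -/
def BsgGoal : Prop :=
  ∀ (G : Type) [Group G], (∀ (x : G) (n : ℕ), n ≠ 0 → x ^ n = 1 → x = 1) →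
    ∀ (z t : G) (s : ℕ), s ≠ 0 → t * z * t⁻¹ = z ^ (3 ^ s) → z ≠ 1 →
    ∃ H : Subgroup G, ¬ Split H (ZMod 2) ∧ (∃ χ : H →* Multiplicative (ZMod 3), χ ≠ 1) ∧
      ∀ K : Subgroup G, K ≤ H → K.relIndex H ≠ 0 → Split K (ZMod 3)

/-- **PDA** -/
def PdaGoal : Prop :=
  ∀ (G : Type) [Group G] (N : Type) [MetricSpace N] [CompactSpace N] [ChartedSpace E3 N]
    (k : Type) [Field k], InC G N → TopCl N k → ∀ H : Subgroup G, EndQ H k → Split H k

/-- **PDB** -/
def PdbGoal : Prop :=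
  ∀ (G : Type) [Group G] (N : Type) [MetricSpace N] [CompactSpace N] [ChartedSpace E3 N]
    (k : Type) [Field k], InC G N → TopCl N k → EndQ (⊥ : Subgroup G) k →
    ∀ H : Subgroup G, Split H k → EndQ H k

/-- **FIN**: the reduction of the two group statements. -/
def FinGoal : Prop := OriGoal → BsgGoal → PdaGoal → PdbGoal → TfGoal ∧ BsGoal

theorem endGoal : EndGoal := fun G _ _ ⟨F, hF, h⟩ hn A hA => by
  by_contra hc
  rw [not_or] at hc
  obtain ⟨c, hc⟩ := vc_of_ends hF h hA hc.1 hc.2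
  exact hn c hc

end Vale.Agent.P216TE
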