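import Vale.Agent.P216TE.All
import Vale.Agent.P216TO.Ori

/-!
# No torsion, no Baumslag-Solitar relation: the unconditional statements
-/

namespace Vale.Agent.P216TE

theorem tf : P216T.TfGoal := (tf_bs P216TO.ori).1

theorem bs : P216T.BsGoal := (tf_bs P216TO.ori).2

end Vale.Agent.P216TE
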