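import Vale.Agent.P216.H126T.PD

/-!
# The duality formula for finite chains with boundary
-/

set_option linter.all false

open Set Finsupp

namespace Vale.Agent.P216TE

open Vale.Agent.P216 Vale.Agent.P216.H126T
open Vale.Agent.P216.Sl Vale.Agent.P216.PS
open Vale.Agent.P216.N929 (Fine Coc)

variable {k : Type} [Field k] {α β : Type}

/-- the slice -/
def slc (τ : List (α × β) → k) (y : β) (l : List α) : k := τ (l.map fun x => (x, y))

theorem m_fst {n q : ℕ} (hqn : q ≤ n) {u : List α → k} (hN : Nrm u) (τ : List (α × β) → k)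
    {z : Ch k α} {c : Ch k β} (hz : z ∈ Sp k (Ln (n + 1))) (hc : c ∈ Sp k (Ln (q + 1))) :
    ev (N929.cup q (fun l => u (l.map Prod.fst)) τ) (sh z c) = ev (N929.fib c τ) (cap q u z) := by
  rw [N929.ev_fib]
  have := bilin_eq_of_mem (P := Ln (n + 1)) (Q := Ln (q + 1))
    (F := (sh (k := k) (α := α) (β := β)).compr₂
      (ev (N929.cup q (fun l => u (l.map Prod.fst)) τ)))
    (G := ((sh (k := k) (α := α) (β := β)).compr₂ (ev τ)).comp (cap q u))
    (fun s t (hs : s.length = n + 1) (ht : t.length = q + 1) => by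
      rw [LinearMap.compr₂_apply, sh_single, LinearMap.comp_apply, LinearMap.compr₂_apply,
        cap_single]
      have hs' : s ≠ [] := fun h => by rw [h] at hs; simp at hs
      have ht' : t ≠ [] := fun h => by rw [h] at ht; simp at ht
      have h2 := front_left (k := k) hN τ q s t (by omega) hs' ht'
      rw [if_pos (by omega)] at h2
      have h3 : ev (N929.cup q (fun l => u (l.map Prod.fst)) τ) (Sh s t) =
        u (s.take (q + 1)) * ev τ (Sh (s.drop q) t) := by
          rw [← h2]; congr 2
      rw [h3, ← mul_one (u (s.take (q + 1))), ← smul_eq_mul (u (s.take (q + 1))) 1,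
        ← Finsupp.smul_single, map_smul, LinearMap.smul_apply, sh_single, map_smul, smul_eq_mul,
        smul_eq_mul, mul_one]) hz hc
  simpa only [LinearMap.compr₂_apply, LinearMap.comp_apply] using this

theorem m_snd {n q : ℕ} {u : List β → k} (hN : Nrm u) (τ : List (α × β) → k)
    {z : Ch k α} {c : Ch k β} {d : k} (hz : z ∈ Sp k (Ln (n + 1)))
    (hc : c ∈ Sp k fun t => t.length = q + 1 ∧ ∀ y ∈ t, ev (slc τ y) z = d) :
    ev (N929.cup q (fun l => u (l.map Prod.snd)) τ) (sh z c) =
      (-1 : k) ^ ((n + 2) * q) * (d * ev u c) := by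
  set F₂ := N929.cup q (fun l : List (α × β) => u (l.map Prod.snd)) τ
  have h1 : ∀ t : List β, (t.length = q + 1 ∧ ∀ y ∈ t, ev (slc τ y) z = d) →
      ev F₂ (sh z (single t (1 : k))) = (-1 : k) ^ ((n + 2) * q) * (d * u t) := by
    rintro t ⟨ht, hs⟩
    obtain ⟨y, hy⟩ : ∃ y, t.drop q = [y] := by
      apply List.length_eq_one_iff.1
      rw [List.length_drop, ht]
      omega
    have h2 := eq_of_mem (P := Ln (n + 1))
      (F := (ev F₂).comp ((sh (k := k) (α := α) (β := β)).flip (single t (1 : k))))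
      (G := ((-1 : k) ^ ((n + 2) * q) * u t) • ev (slc τ y))
      (fun s (hs : s.length = n + 1) => by
        rw [LinearMap.comp_apply, LinearMap.flip_apply, sh_single, LinearMap.smul_apply, ev_single,
          one_mul, smul_eq_mul]
        have hs' : s ≠ [] := fun h => by rw [h] at hs; simp at hs
        have ht' : t ≠ [] := fun h => by rw [h] at ht; simp at ht
        have h3 := front_right (k := k) hN τ q s t (by omega) hs' ht'
        rw [if_pos (by omega), hy, Sh_point_right y hs', ev_single, one_mul, hs,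
          List.take_of_length_le (by omega)] at h3
        have h4 : ev F₂ (Sh s t) = (-1 : k) ^ ((n + 1 + 1) * q) *
          (u t * τ (s.map fun a => (a, y))) := by
            rw [← h3]; congr 2
        rw [h4, mul_assoc]; rfl) hz
    rw [LinearMap.comp_apply, LinearMap.flip_apply, LinearMap.smul_apply,
      hs y (List.mem_of_mem_drop (by rw [hy]; simp)), smul_eq_mul] at h2
    rw [h2]
    ring
  have h5 := eq_of_mem (F := (ev F₂).comp (sh (k := k) (α := α) (β := β) z))
    (G := ((-1 : k) ^ ((n + 2) * q) * d) • ev u)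
    (fun t ht => by
      rw [LinearMap.comp_apply, h1 t ht, LinearMap.smul_apply, ev_single, one_mul, smul_eq_mul]
      ring) hc
  rw [LinearMap.comp_apply, LinearMap.smul_apply, smul_eq_mul] at h5
  rw [h5]
  ring

variable {Y : Type} [MetricSpace Y]

theorem m_htpy {n q : ℕ} (hq : 1 ≤ q) {τ : List (Y × Y) → k} {ε ρ r εu : ℝ}
    (coc : Coc univ ε n τ) (supp : ∀ l, (∃ p ∈ l, ρ ≤ dist p.1 p.2) → τ l = 0) {u : List Y → k}
    (hu : Coc univ εu q u) (r2 : r ≤ ε) (r4 : 3 * r + ρ ≤ εu) {l : List (Y × Y)}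
    (hl1 : l.length = n + q + 1) (hl2 : Fine univ r l) :
    dl (N929.cup (q - 1) (pru u) τ) l = (-1 : k) ^ (q + 1) *
      (N929.cup q (fun l => u (l.map Prod.snd)) τ l +
        (-1) * N929.cup q (fun l => u (l.map Prod.fst)) τ l) := by
  have hq1 : q - 1 + 1 = q := by omega
  have hq2 : q - 1 + 2 = q + 1 := by omega
  have h2 := N929.dl_cup (q - 1) (pru u) τ l (by omega)
  rw [hq1, hq2] at h2
  have h3 : dl τ (l.drop (q - 1)) = 0 := by
    refine coc _ (by rw [List.length_drop]; omega) ?_
    exact (hl2.sub fun x hx => List.mem_of_mem_drop hx).mono subset_rfl r2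
  rw [h2, h3, mul_zero, mul_zero, add_zero]
  by_cases h0 : τ (l.drop q) = 0
  · simp only [N929.cup, h0, mul_zero, add_zero]
  · have hne : l.drop q ≠ [] := fun h => by
      have := congrArg List.length h
      rw [List.length_drop, List.length_nil] at this
      omega
    obtain ⟨p, hp⟩ := List.exists_mem_of_ne_nil _ hne
    have hpd : dist p.1 p.2 < ρ := by
      by_contra hcon
      exact h0 (supp _ ⟨p, hp, not_lt.1 hcon⟩)
    have hpl : p ∈ l := List.mem_of_mem_drop hp
    have hr : 0 < r := by simpa using hl2.2 p hpl p hpl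
    have hρ : 0 < ρ := dist_nonneg.trans_lt hpd
    have hd : ∀ p' ∈ l, dist p'.1 p'.2 < 2 * r + ρ := by
      intro p' hp'
      have a1 := hl2.2 p' hp' p hpl
      rw [Prod.dist_eq] at a1
      have a2 := (le_max_left _ _).trans_lt a1
      have a3 := (le_max_right _ _).trans_lt a1
      have a4 := dist_triangle4 p'.1 p.1 p.2 p'.2
      rw [dist_comm p.2 p'.2] at a4
      linarith
    have hne' : l.take (q + 1) ≠ [] := fun h => by
      have := congrArg List.length h
      rw [List.length_take, List.length_nil] at this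
      omega
    have hlen : (l.take (q + 1)).length = q + 1 := by
      rw [List.length_take]; omega
    have h5 := dl_pru (k := k) (u := u) hne' (fun l' hl' hx => by
      refine hu l' (by omega) ⟨fun _ _ => mem_univ _, fun a ha b hb => ?_⟩
      obtain ⟨p₁, hp₁, ha⟩ := hx a ha
      obtain ⟨p₂, hp₂, hb⟩ := hx b hb
      have b1 := List.mem_of_mem_take hp₁
      have b2 := List.mem_of_mem_take hp₂
      have a1 := hl2.2 p₁ b1 p₂ b2
      rw [Prod.dist_eq] at a1
      have a2 := (le_max_left _ _).trans_lt a1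
      have a3 := (le_max_right _ _).trans_lt a1
      have a4 := hd p₁ b1
      have a5 := hd p₂ b2
      rcases ha with rfl | rfl <;> rcases hb with rfl | rfl
      · linarith
      · have := dist_triangle p₁.1 p₂.1 p₂.2
        linarith
      · have := dist_triangle p₁.2 p₁.1 p₂.1
        rw [dist_comm p₁.2 p₁.1] at this
        linarith
      · linarith)
    rw [h5, hlen]
    simp only [N929.cup]
    ring

/-- **The duality formula.** `τ` a cocycle of degree `n` supported near the diagonal, `u` a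
normalised cocycle of degree `q`, `z`, `c` fine chains of degree `n`, `q`, the slices of `τ` at the
points of `c` have the value `d` on `z`. -/
theorem master {n q : ℕ} (hq : 1 ≤ q) (hqn : q ≤ n) {τ : List (Y × Y) → k} {ε ρ r εu : ℝ}
    (coc : Coc univ ε n τ) (supp : ∀ l, (∃ p ∈ l, ρ ≤ dist p.1 p.2) → τ l = 0) {u : List Y → k}
    (hN : Nrm u) (hu : Coc univ εu q u) (r2 : r ≤ ε) (r4 : 3 * r + ρ ≤ εu) {z c : Ch k Y} {d : k}
    (hz : z ∈ Sp k fun l => l.length = n + 1 ∧ Fine univ r l)
    (hc : c ∈ Sp k fun l => (l.length = q + 1 ∧ Fine univ r l) ∧ ∀ y ∈ l, ev (slc τ y) z = d) :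
    (-1 : k) ^ (q + 1) * ((-1 : k) ^ ((n + 2) * q) * (d * ev u c) - ev (N929.fib c τ) (cap q u z)) =
      ev (N929.fib c (N929.cup (q - 1) (pru u) τ)) (bd z) +
        (-1 : k) ^ n * ev (N929.cup (q - 1) (pru u) τ) (sh z (bd c)) := by
  have hz1 : z ∈ Sp k (Ln (n + 1)) := Sp_mono (fun l hl => hl.1) hz
  have hc1 : c ∈ Sp k (Ln (q + 1)) := Sp_mono (fun l hl => hl.1.1) hc
  have hZm : sh z c ∈ Sp k fun l : List (Y × Y) => l.length = n + q + 1 ∧ Fine univ r l := by
    refine sh_mem (fun s t l hs ht hl => ?_) hz hc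
    refine ⟨?_, fine_prod hs.2 ht.1.2 le_rfl le_rfl hl⟩
    have := hl.1
    rw [hs.1, ht.1.1] at this
    omega
  have h1 := ev_congr (fun l hl => m_htpy hq coc supp hu r2 r4 hl.1 hl.2) hZm
  rw [ev_dl, bd_sh (p := n) (q := q) (by omega) hz1 hc1, ev_smul_fun, ev_add_fun, ev_smul_fun,
    m_fst hqn hN τ hz1 hc1, m_snd hN τ hz1 (Sp_mono (fun l hl => ⟨hl.1.1, hl.2⟩) hc), map_add,
    map_smul, smul_eq_mul, ← N929.ev_fib] at h1
  rw [h1]
  ring

/-- The coboundary of a fibre integral. -/
theorem dl_fib' {p q : ℕ} {c : Ch k β} (hc : c ∈ Sp k (Ln (q + 1))) (f : List (α × β) → k)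
    {l : List α} (hl : l.length = p + 2) :
    dl (N929.fib c f) l = N929.fib c (dl f) l + (-1) ^ p * ev f (sh (single l 1) (bd c)) := by
  have h4 := bd_sh (k := k) (p := p + 1) (q := q) (by omega) (single_mem (P := Ln _) hl 1) hc
  rw [dl, N929.ev_fib, N929.fib, ev_dl, h4, bd_single, one_smul, map_add, map_smul, smul_eq_mul]
  ring

end Vale.Agent.P216TE
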