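import Vale.Agent.P216TE.Top
import Vale.Agent.P216TB.Bsg

/-!
# No torsion, no Baumslag-Solitar relation
-/

namespace Vale.Agent.P216TE

theorem tf_bs (h : OriGoal) : P216T.TfGoal ∧ P216T.BsGoal := P216TF.fin h P216TB.bsg pda pdb

end Vale.Agent.P216TE
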