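import Vale.Agent.P216T.Univ

/-!
# A metric model of the coverings
-/

set_option linter.all false

open Set Filter Topology Metric

noncomputable section

namespace Vale.Agent.P216TE

open Vale.Agent.P216M Vale.Agent.P216T

/-- A universal cocycle with finitely many values. -/
structure Md (G N : Type) [Group G] [MetricSpace N] where
  c : N → N → G
  r : ℝ
  U : Univ c r
  fin : {h | ∃ a b, dist a b < r ∧ c a b = h}.Finite
  conn : ∀ δ > 0, ∀ (A : Type) (F : N → G → A),
    (∀ a b g, dist a b < δ → F b (c b a * g) = F a g) → ∀ a g b g', F a g = F b g'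

variable {G N : Type} [Group G] [MetricSpace N]

/-- The covering with fibre `Q`. -/
@[ext] structure Cv (m : Md G N) (Q : Type) where
  a : N
  q : Q

namespace Md

variable (m : Md G N) {Q Q' : Type} [MulAction G Q] [MulAction G Q']

theorem pos : 0 < m.r := m.U.pos

theorem mul {a b d : N} (h1 : dist a b < m.r) (h2 : dist a d < m.r) (h3 : dist b d < m.r) :
    m.c a b * m.c b d = m.c a d := m.U.mul a b d h1 h2 h3

theorem self (a : N) : m.c a a = 1 := m.U.self a

theorem inv {a b : N} (h : dist a b < m.r) : m.c a b * m.c b a = 1 := by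
  rw [m.mul h (by simpa using m.pos) (by rwa [dist_comm]), m.self]

theorem mul_smul' {a b d : N} (h1 : dist a b < m.r) (h2 : dist a d < m.r) (h3 : dist b d < m.r)
    (q : Q) : m.c a b • m.c b d • q = m.c a d • q := by rw [← mul_smul, m.mul h1 h2 h3]

/-- close points -/
def Rel (x y : Cv m Q) : Prop := dist x.a y.a < m.r ∧ y.q = m.c y.a x.a • x.q

theorem Rel.symm {m : Md G N} {x y : Cv m Q} (h : m.Rel x y) : m.Rel y x :=
  ⟨by rw [dist_comm]; exact h.1, by rw [h.2, ← mul_smul, m.inv h.1, one_smul]⟩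

open Classical in
instance : MetricSpace (Cv m Q) where
  dist x y := if m.Rel x y then dist x.a y.a else m.r
  dist_self x := by rw [if_pos ⟨by simpa using m.pos, by rw [m.self, one_smul]⟩, dist_self]
  dist_comm x y := by
    by_cases h : m.Rel x y
    · rw [if_pos h, if_pos h.symm, dist_comm]
    · rw [if_neg h, if_neg fun h' => h h'.symm]
  dist_triangle x y z := by
    have le : ∀ x y : Cv m Q, (if m.Rel x y then dist x.a y.a else m.r) ≤ m.r := fun x y => by
      split_ifs with h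
      exacts [h.1.le, le_rfl]
    have nn : ∀ x y : Cv m Q, 0 ≤ (if m.Rel x y then dist x.a y.a else m.r) := fun x y => by
      split_ifs with h
      exacts [dist_nonneg, m.pos.le]
    by_cases h1 : m.Rel x y
    · by_cases h2 : m.Rel y z
      · rw [if_pos h1, if_pos h2]
        have := dist_triangle x.a y.a z.a
        split_ifs with h3
        · exact this
        · by_contra hc
          have h4 : dist x.a z.a < m.r := by linarith
          exact h3 ⟨h4, by
            rw [h2.2, h1.2, m.mul_smul' h2.symm.1 (by rwa [dist_comm]) h1.symm.1]⟩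
      · rw [if_neg h2]; linarith [le x z, nn x y]
    · rw [if_neg h1]; linarith [le x z, nn y z]
  eq_of_dist_eq_zero {x y} h := by
    by_cases h1 : m.Rel x y
    · have h2 : dist x.a y.a = 0 := (if_pos h1).symm.trans h
      have h3 := dist_eq_zero.1 h2
      exact Cv.ext h3 (by rw [h1.2, h3, m.self, one_smul])
    · exact absurd ((if_neg h1).symm.trans h) m.pos.ne'

variable {m}

theorem dist_rel {x y : Cv m Q} (h : m.Rel x y) : dist x y = dist x.a y.a := if_pos h

theorem rel_of {x y : Cv m Q} (h : dist x y < m.r) : m.Rel x y := by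
  by_contra hc
  exact h.ne (if_neg hc)

theorem lt_iff {x y : Cv m Q} {ε : ℝ} (hε : ε ≤ m.r) :
    dist x y < ε ↔ dist x.a y.a < ε ∧ y.q = m.c y.a x.a • x.q :=
  ⟨fun h => have h1 := rel_of (h.trans_le hε); ⟨dist_rel h1 ▸ h, h1.2⟩,
    fun h => by rw [dist_rel ⟨h.1.trans_le hε, h.2⟩]; exact h.1⟩

variable (m) in
/-- the local section -/
def lf (a : N) (q : Q) (b : N) : Cv m Q := ⟨b, m.c b a • q⟩

theorem lf_self (x : Cv m Q) : m.lf x.a x.q x.a = x := Cv.ext rfl (by
  show m.c x.a x.a • x.q = x.q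
  rw [m.self, one_smul])

theorem lf_eq {x y : Cv m Q} (h : dist x y < m.r) : m.lf x.a x.q y.a = y :=
  Cv.ext rfl (rel_of h).2.symm

theorem dist_lf {a b d : N} (q : Q) (h1 : dist a b < m.r) (h2 : dist a d < m.r)
    (h3 : dist b d < m.r) : dist (m.lf a q b) (m.lf a q d) = dist b d :=
  dist_rel ⟨h3, (m.mul_smul' (by rwa [dist_comm]) (by rwa [dist_comm])
    (by rwa [dist_comm]) q).symm⟩

theorem lf_lf {a b d : N} (q : Q) (h1 : dist a b < m.r) (h2 : dist a d < m.r)
    (h3 : dist b d < m.r) : m.lf b (m.c b a • q) d = m.lf a q d :=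
  Cv.ext rfl (m.mul_smul' (by rwa [dist_comm]) (by rwa [dist_comm]) (by rwa [dist_comm]) q)

/-- the map of coverings -/
def mq (f : Q → Q') (x : Cv m Q) : Cv m Q' := ⟨x.a, f x.q⟩

theorem dist_mq {f : Q → Q'} (hf : ∀ (g : G) q, f (g • q) = g • f q) {x y : Cv m Q} {ε : ℝ}
    (h : dist x y < ε) : dist (mq f x) (mq f y) < ε := by
  by_cases h1 : m.Rel x y
  · rw [dist_rel (x := mq f x) (y := mq f y) ⟨h1.1, by
      show f y.q = m.c y.a x.a • f x.q
      rw [h1.2, hf]⟩]
    rwa [dist_rel h1] at h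
  · refine lt_of_le_of_lt ?_ ((if_neg h1).symm.trans_lt h)
    by_contra hc
    by_cases h2 : m.Rel (mq f x) (mq f y)
    · exact hc ((dist_rel h2).trans_lt h2.1).le
    · exact hc (if_neg h2).le

/-- deck transformations -/
def dk (g : G) : Cv m G → Cv m G := mq (· * g)

theorem dist_dk (g : G) {x y : Cv m G} {ε : ℝ} (h : dist x y < ε) :
    dist (dk g x) (dk g y) < ε := dist_mq (fun a b => mul_assoc a b g) h

theorem dk_dk (g h : G) (x : Cv m G) : dk h (dk g x) = dk (g * h) x :=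
  Cv.ext rfl (mul_assoc _ _ _)

theorem dk_one (x : Cv m G) : dk 1 x = x := Cv.ext rfl (mul_one _)

theorem const {δ : ℝ} (hδ : 0 < δ) {A : Type} {F : Cv m G → A}
    (h : ∀ x y, dist x y < δ → F x = F y) (x y : Cv m G) : F x = F y :=
  m.conn (min δ m.r) (lt_min hδ m.pos) A (fun a g => F ⟨a, g⟩) (fun a b g hab =>
    (h ⟨a, g⟩ _ (((lt_iff (min_le_right _ _)).2 ⟨hab, rfl⟩).trans_le (min_le_left _ _))).symm)
    x.a x.q y.a y.q

variable (m) in
/-- **Developing maps.** -/
theorem dev {ε : ℝ} (hε : 0 < ε) : ∃ δ > 0, ∀ (A : Type) [Group A] (f : Cv m G → Cv m G → A),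
    (∀ x y z, dist x y < ε → dist x z < ε → dist y z < ε → f x y * f y z = f x z) →
    ∃ W : Cv m G → A, ∀ x y, dist x y < δ → W y = W x * f x y := by
  obtain ⟨δ, hδ, H⟩ := m.U.up (min ε m.r) (lt_min hε m.pos)
  refine ⟨min δ m.r, lt_min hδ m.pos, fun A _ f hf => ?_⟩
  rcases isEmpty_or_nonempty N with hN | ⟨⟨a₀⟩⟩
  · exact ⟨fun _ => 1, fun x => isEmptyElim x.a⟩
  let F : N → N → Equiv.Perm (G × A) := fun a b =>
    ⟨fun p => (m.c a b * p.1, p.2 * f ⟨b, p.1⟩ ⟨a, m.c a b * p.1⟩),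
      fun p => ((m.c a b)⁻¹ * p.1, p.2 * (f ⟨b, (m.c a b)⁻¹ * p.1⟩ ⟨a, p.1⟩)⁻¹),
      fun p => by simp, fun p => by simp⟩
  obtain ⟨φ, Θ, hφ⟩ := H _ F fun a b d h1 h2 h3 => by
    have e := m.mul (h1.trans_le (min_le_right _ _)) (h2.trans_le (min_le_right _ _))
      (h3.trans_le (min_le_right _ _))
    have k : ∀ {a b : N} {g g' : G}, dist a b < min ε m.r → g' = m.c a b * g →
        dist (⟨b, g⟩ : Cv m G) ⟨a, g'⟩ < ε := fun h h' =>
      ((lt_iff (min_le_right _ _)).2 ⟨by rwa [dist_comm], h'⟩).trans_le (min_le_left _ _)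
    refine Equiv.ext fun p => Prod.ext ?_ ?_
    · show m.c a b * (m.c b d * p.1) = m.c a d * p.1
      rw [← mul_assoc, e]
    · show p.2 * f ⟨d, p.1⟩ ⟨b, m.c b d * p.1⟩ * f ⟨b, m.c b d * p.1⟩ ⟨a, m.c a b * (m.c b d * p.1)⟩ =
        p.2 * f ⟨d, p.1⟩ ⟨a, m.c a d * p.1⟩
      rw [mul_assoc, hf _ _ _ (k h3 rfl) (k h2 (by rw [← mul_assoc, e])) (k h1 rfl), ← mul_assoc, e]
  let v : Cv m G → G × A := fun x => (Θ x.a * φ x.q) ((Θ a₀)⁻¹ (1, 1))
  have hv : ∀ x y : Cv m G, dist x y < min δ m.r → v y = F y.a x.a (v x) := fun x y h => by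
    obtain ⟨h1, h2⟩ := (lt_iff (min_le_right _ _)).1 h
    rw [hφ _ _ (by rw [dist_comm]; exact h1.trans_le (min_le_left _ _))]
    show (Θ y.a * φ y.q) _ = (Θ y.a * φ (m.c y.a x.a) * (Θ x.a)⁻¹ * (Θ x.a * φ x.q)) _
    rw [h2, smul_eq_mul, map_mul]
    congr 1
    group
  have h1 : ∀ x, (v x).1 = x.q := fun x => by
    have := const (lt_min hδ m.pos) (F := fun x => x.q⁻¹ * (v x).1) (fun x y h => by
      rw [hv x y h, ((lt_iff (min_le_right _ _)).1 h).2]
      show _ = (m.c y.a x.a * x.q)⁻¹ * (m.c y.a x.a * (v x).1)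
      group) x ⟨a₀, 1⟩
    simp only [v, map_one, mul_one, inv_one, one_mul, Equiv.Perm.coe_inv,
      Equiv.apply_symm_apply] at this
    exact (inv_mul_eq_one.1 this).symm
  refine ⟨fun x => (v x).2, fun x y h => ?_⟩
  beta_reduce
  rw [hv x y h]
  show (v x).2 * f ⟨x.a, (v x).1⟩ ⟨y.a, m.c y.a x.a * (v x).1⟩ = _
  rw [h1, ← smul_eq_mul (m.c y.a x.a), ← ((lt_iff (min_le_right _ _)).1 h).2]

variable (m) in
/-- neighbouring sheets -/
def nb (S : Set Q) : Set Q := {q | ∃ a b, dist a b < m.r ∧ m.c a b • q ∈ S}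

theorem nb_fin {S : Set Q} (h : S.Finite) : (m.nb S).Finite := by
  refine ((m.fin.prod h).image fun p : G × Q => p.1⁻¹ • p.2).subset ?_
  rintro q ⟨a, b, h1, h2⟩
  exact ⟨(m.c a b, m.c a b • q), ⟨⟨a, b, h1, rfl⟩, h2⟩, inv_smul_smul _ _⟩

theorem mem_nb {S : Set Q} {x y : Cv m Q} (h : dist x y < m.r) (hy : y.q ∈ S) : x.q ∈ m.nb S :=
  ⟨y.a, x.a, (rel_of h).symm.1, (rel_of h).2 ▸ hy⟩

end Md

/-- The model of the universal covering. -/
theorem exists_md [CompactSpace N] [LocallyConnectedSpace N] {X : Type} [TopologicalSpace X]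
    [MulAction G X] {P : X → N} (h : Quo G P) (hX : SC X) :
    ∃ (m : Md G N) (j : Cv m G → X), Function.Bijective j ∧ Continuous j ∧
      ∀ g x, j (Md.dk g x) = g⁻¹ • j x := by
  obtain ⟨c, r, s, K, hU, h1, -, h2, h3, -⟩ := h.exists_univ hX
  haveI := hX.conn
  have hP := h.continuous
  have inv : ∀ a b, dist a b < r → (c b a)⁻¹ = c a b := fun a b hab =>
    inv_eq_of_mul_eq_one_left (by
      rw [hU.mul a b a hab (by simpa using hU.pos) (by rwa [dist_comm]), hU.self])
  choose hh hhe using fun e : X => h.orb (s (P e)) e (h2 _)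
  have ev : ∀ δ > 0, ∀ e : X, ∀ᶠ e' in 𝓝 e, dist (P e) (P e') < δ ∧
      (hh e')⁻¹ = c (P e') (P e) * (hh e)⁻¹ := by
    intro δ hδ e
    have b1 : ∀ᶠ e' in 𝓝 e, P e' ∈ ball (P e) (min r δ) :=
      hP.continuousAt.eventually (ball_mem_nhds _ (lt_min hU.pos hδ))
    obtain ⟨O, hO, heO, hOi⟩ := h.loc.isLocallyInjective e
    have b2 : ContinuousAt (fun e' => hh e • c (P e) (P e') • s (P e')) e :=
      (h.cont _).continuousAt.comp
        (((h3 (P e)).continuousAt (ball_mem_nhds _ hU.pos)).comp hP.continuousAt)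
    have b3 : ∀ᶠ e' in 𝓝 e, hh e • c (P e) (P e') • s (P e') ∈ O :=
      b2.eventually (by beta_reduce; rw [hU.self, one_smul, hhe]; exact hO.mem_nhds heO)
    filter_upwards [b1, b3, hO.mem_nhds heO] with e' c1 c2 c3
    have c4 : dist (P e) (P e') < min r δ := by rwa [mem_ball, dist_comm] at c1
    have c5 := hOi c2 c3 (by rw [h.inv, h.inv, h2])
    rw [← mul_smul] at c5
    refine ⟨c4.trans_le (min_le_right _ _), ?_⟩
    rw [← h.cancel (c5.trans (hhe e').symm), mul_inv_rev,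
      ← inv _ _ (c4.trans_le (min_le_left _ _)), inv_inv]
  have key : ∀ a (g : G), hh (g⁻¹ • s a) = g⁻¹ := fun a g => by
    have := hhe (g⁻¹ • s a)
    rw [h.inv, h2] at this
    exact h.cancel this
  let m : Md G N := ⟨c, r, hU, h1, fun δ hδ A F hF a g b g' => by
    have hlc : IsLocallyConstant fun e : X => F (P e) (hh e)⁻¹ := by
      rw [IsLocallyConstant.iff_eventually_eq]
      intro e
      filter_upwards [ev δ hδ e] with e' ⟨c4, c6⟩
      rw [c6, hF _ _ _ c4]
    have := hlc.apply_eq_of_preconnectedSpace (g⁻¹ • s a) (g'⁻¹ • s b)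
    simpa only [key, inv_inv, h.inv, h2] using this⟩
  refine ⟨m, fun x => x.q⁻¹ • s x.a, ⟨fun x y e => ?_, fun e => ⟨⟨P e, (hh e)⁻¹⟩, by simp [hhe]⟩⟩,
    continuous_iff_continuousAt.2 fun x => ?_, fun g x => ?_⟩
  · have e1 : x.a = y.a := by simpa only [h.inv, h2] using congrArg P e
    beta_reduce at e
    rw [e1] at e
    exact Cv.ext e1 (inv_injective (h.cancel e))
  · have b0 : ContinuousAt (fun y : Cv m G => y.a) x := by
      refine Metric.continuousAt_iff.2 fun ε hε => ⟨min ε r, lt_min hε hU.pos, fun y hy => ?_⟩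
      exact ((Md.lt_iff (m := m) (min_le_right _ _)).1 hy).1.trans_le (min_le_left _ _)
    have b2 : ContinuousAt (fun y : Cv m G => x.q⁻¹ • c x.a y.a • s y.a) x :=
      (h.cont _).continuousAt.comp
        (ContinuousAt.comp (f := fun y : Cv m G => y.a)
          ((h3 x.a).continuousAt (ball_mem_nhds _ hU.pos)) b0)
    refine b2.congr ?_
    filter_upwards [ball_mem_nhds x hU.pos] with y hy
    have := (Md.rel_of (m := m) hy).symm
    rw [this.2, smul_eq_mul, mul_inv_rev, mul_smul]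
    congr 2
    exact (inv _ _ this.1).symm
  · show (x.q * g)⁻¹ • s x.a = _
    rw [mul_inv_rev, mul_smul]

end Vale.Agent.P216TE
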