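import Vale.Agent.P216TE.Cv
import Vale.Agent.P216TE.Master
import Vale.Agent.P216.Ch2.D246.Thom

/-!
# The locally finite fundamental cycle of a covering
-/

set_option linter.all false

open Set Filter Finsupp

noncomputable section

namespace Vale.Agent.P216TE

open Vale.Agent.P216 Vale.Agent.P216.H126T
open Vale.Agent.P216.Sl Vale.Agent.P216.PS
open Vale.Agent.P216.N929 (Fine Coc Cy Tau bd_eq_zero not_ex_iff)

variable {k : Type} [Field k] {α β : Type}

theorem sp_and {P Q : List α → Prop} {c : Ch k α} (h : c ∈ Sp k P) (h' : c ∈ Sp k Q) :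
    c ∈ Sp k fun l => P l ∧ Q l := fun _ hl => ⟨h hl, h' hl⟩

theorem exists_supp (c : Ch k α) : ∃ F : Set α, F.Finite ∧ c ∈ Sp k fun l => ∀ y ∈ l, y ∈ F :=
  ⟨⋃ l ∈ c.support, {y | y ∈ l}, c.support.finite_toSet.biUnion fun l _ => l.finite_toSet,
    fun l hl y hy => mem_biUnion hl hy⟩

theorem ev_sum_fun {ι : Type} (S : Finset ι) (f : ι → List α → k) (c : Ch k α) :
    ev (fun l => ∑ i ∈ S, f i l) c = ∑ i ∈ S, ev (f i) c := by
  classical
  induction S using Finset.induction_on with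
  | empty => simp [ev_zero_fun]
  | insert a S ha ih => simp only [Finset.sum_insert ha, ev_add_fun, ih]

theorem exists_ne_of_ev {P : List α → Prop} {f : List α → k} {c : Ch k α} (hc : c ∈ Sp k P)
    (h : ev f c ≠ 0) : ∃ l, P l ∧ f l ≠ 0 := by
  by_contra hn
  exact h (ev_zero_of (fun l hl => by_contra fun e => hn ⟨l, hl, e⟩) hc)

namespace Md

variable {G N : Type} [Group G] [MetricSpace N] {m : Md G N} {Q : Type} [MulAction G Q]

variable (m) in
/-- the lift of a list -/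
def lL (q : Q) : List N → List (Cv m Q)
  | [] => []
  | a :: l => (a :: l).map (m.lf a q)

variable (m) in
/-- the sum of the lifts -/
def zS (S : Finset Q) : Ch k N →ₗ[k] Ch k (Cv m Q) :=
  linearCombination k fun l => ∑ q ∈ S, single (m.lL q l) 1

theorem zS_single (S : Finset Q) (l : List N) :
    m.zS S (single l (1 : k)) = ∑ q ∈ S, single (m.lL q l) 1 := by
  simp [zS, linearCombination_single]

theorem ev_zS (S : Finset Q) (f : List (Cv m Q) → k) (z : Ch k N) :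
    ev f (m.zS S z) = ev (fun l => ∑ q ∈ S, f (m.lL q l)) z :=
  lin_ext_apply (f := (ev f).comp (m.zS S)) (fun l => by simp [zS_single]) z

theorem fine_lf {ε : ℝ} (hε : ε ≤ m.r) {l : List N} (hl : Fine univ ε l) {a : N}
    (ha : ∀ b ∈ l, dist a b < m.r) (q : Q) : Fine univ ε (l.map (m.lf a q)) := by
  refine ⟨fun _ _ => mem_univ _, fun x hx y hy => ?_⟩
  obtain ⟨b, hb, rfl⟩ := List.mem_map.1 hx
  obtain ⟨d, hd, rfl⟩ := List.mem_map.1 hy
  rw [dist_lf q (ha b hb) (ha d hd) ((hl.2 b hb d hd).trans_le hε)]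
  exact hl.2 b hb d hd

theorem fine_a {ε : ℝ} (hε : ε ≤ m.r) {l : List (Cv m Q)} (hl : Fine univ ε l) :
    Fine univ ε (l.map Cv.a) := by
  refine ⟨fun _ _ => mem_univ _, fun x hx y hy => ?_⟩
  obtain ⟨b, hb, rfl⟩ := List.mem_map.1 hx
  obtain ⟨d, hd, rfl⟩ := List.mem_map.1 hy
  exact ((lt_iff hε).1 (hl.2 b hb d hd)).1

theorem zS_mem {ε : ℝ} (hε : ε ≤ m.r) {j : ℕ} {z : Ch k N}
    (hz : z ∈ Sp k fun l => l.length = j ∧ Fine univ ε l) (S : Finset Q) :
    m.zS S z ∈ Sp k fun l => l.length = j ∧ Fine univ ε l := by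
  refine map_mem _ (fun l hl => ?_) hz
  rw [zS_single]
  refine Submodule.sum_mem _ fun q _ => single_mem ?_ _
  match l, hl with
  | [], hl => exact ⟨hl.1, fun _ _ => mem_univ _, fun _ h => by simp [lL] at h⟩
  | a :: l, hl =>
    exact ⟨by simpa [lL] using hl.1, fine_lf hε hl.2
      (fun b hb => (hl.2.2 a (by simp) b hb).trans_le hε) q⟩

/-- `B` has compact support. -/
def Sm {V : Type} [Zero V] (ε : ℝ) (j : ℕ) (B : List (Cv m Q) → V) : Prop :=
  ∃ S : Set Q, S.Finite ∧ ∀ l, l.length = j → Fine univ ε l → B l ≠ 0 → ∃ p ∈ l, p.q ∈ S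

theorem Sm.mono {V : Type} [Zero V] {ε δ : ℝ} {j : ℕ} {B : List (Cv m Q) → V} (h : Sm ε j B)
    (hδ : δ ≤ ε) : Sm δ j B :=
  let ⟨S, h1, h2⟩ := h
  ⟨S, h1, fun l a b => h2 l a (b.mono subset_rfl hδ)⟩

theorem Sm.fin {V : Type} [Zero V] {ε : ℝ} (hε : ε ≤ m.r) {j : ℕ} {B : List (Cv m Q) → V}
    (h : Sm ε j B) : ∃ S : Finset Q, ∀ (l : List N) (a : N) (q : Q), l.length = j →
      Fine univ ε l → (∀ b ∈ l, dist a b < m.r) → B (l.map (m.lf a q)) ≠ 0 → q ∈ S := by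
  obtain ⟨S, h1, h2⟩ := h
  refine ⟨(nb_fin (m := m) h1).toFinset, fun l a q a1 a2 a3 a4 => ?_⟩
  obtain ⟨p, hp, hp'⟩ := h2 _ (by simpa using a1) (fine_lf hε a2 a3 q) a4
  obtain ⟨b, hb, rfl⟩ := List.mem_map.1 hp
  exact (Finite.mem_toFinset _).2 ⟨b, a, by rw [dist_comm]; exact a3 b hb, hp'⟩

/-- The boundary is at infinity. -/
theorem bd_far {ε : ℝ} (hε : ε ≤ m.r) {j : ℕ} {z : Ch k N}
    (hz : z ∈ Sp k fun l => l.length = j + 2 ∧ Fine univ ε l) (hb : bd z = 0)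
    {B : List (Cv m Q) → k} (h : Sm ε (j + 1) B) :
    ∀ᶠ S in atTop, ev B (bd (m.zS S z)) = 0 := by
  obtain ⟨S₀, h0⟩ := h.fin hε
  filter_upwards [eventually_ge_atTop S₀] with S hS
  rw [← ev_dl, ev_zS, ev_congr (g := dl fun l => ∑ᶠ q, B (m.lL q l)) (fun l hl => ?_) hz, ev_dl,
    hb, map_zero]
  match l, hl with
  | a :: l, hl =>
    have ha : ∀ b ∈ a :: l, dist a b < m.r := fun b hb => (hl.2.2 a (by simp) b hb).trans_le hε
    refine ((Finset.sum_congr rfl fun q _ => (N929.dl_map B (m.lf a q) (a :: l)).symm).trans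
      (ev_sum_fun S (fun q l' => B (l'.map (m.lf a q))) _).symm).trans ?_
    refine dl_congr fun l' h1 h2 => ?_
    have h3 : l'.length = j + 1 := by have := hl.1; omega
    have h4 := hl.2.sub h2
    match l', h2, h3, h4 with
    | b :: l', h2, h3, h4 =>
      show _ = ∑ᶠ q, B ((b :: l').map (m.lf b q))
      rw [← finsum_eq_sum_of_support_subset (s := S) _ fun q hq =>
        hS (h0 _ a q h3 h4 (fun d hd => ha d (h2 d hd)) hq),
        ← finsum_comp_equiv (MulAction.toPerm (m.c b a)) (f := fun q => B ((b :: l').map (m.lf b q)))]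
      refine finsum_congr fun q => congrArg B (List.map_congr_left fun d hd => ?_)
      exact (lf_lf q (ha b (h2 b (by simp))) (ha d (h2 d hd))
        ((h4.2 b (by simp) d hd).trans_le hε)).symm

/-- Stabilisation. -/
theorem stab {ε : ℝ} (hε : ε ≤ m.r) {j : ℕ} {z : Ch k N}
    (hz : z ∈ Sp k fun l => l.length = j + 1 ∧ Fine univ ε l) {V : Type} [AddCommGroup V]
    [Module k V] (L : Ch k (Cv m Q) →ₗ[k] V) (h : Sm ε (j + 1) fun l => L (single l 1)) :
    ∃ S₀ : Finset Q, ∀ᶠ S in atTop, L (m.zS S z) = L (m.zS S₀ z) := by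
  obtain ⟨S₀, h0⟩ := h.fin hε
  refine ⟨S₀, ?_⟩
  filter_upwards [eventually_ge_atTop S₀] with S hS
  refine eq_of_mem (F := L.comp (m.zS S)) (G := L.comp (m.zS S₀)) (fun l hl => ?_) hz
  simp only [LinearMap.comp_apply, zS_single, map_sum]
  match l, hl with
  | a :: l, hl =>
    refine (Finset.sum_subset hS fun q _ hq => by_contra fun e => hq ?_).symm
    exact h0 _ a q hl.1 hl.2 (fun b hb => (hl.2.2 a (by simp) b hb).trans_le hε) e

open Classical in
variable (m Q) in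
/-- the lift of a cochain supported near the diagonal -/
def tl (τ : List (N × N) → k) (l : List (Cv m Q × Cv m Q)) : k :=
  if ∀ p ∈ l, dist p.1 p.2 < m.r then τ (l.map (Prod.map Cv.a Cv.a)) else 0

theorem tl_supp {τ : List (N × N) → k} {ρ : ℝ}
    (supp : ∀ l, (∃ p ∈ l, ρ ≤ dist p.1 p.2) → τ l = 0) (l : List (Cv m Q × Cv m Q))
    (h : ∃ p ∈ l, ρ ≤ dist p.1 p.2) : m.tl Q τ l = 0 := by
  rw [tl]
  split_ifs with h1
  · obtain ⟨p, hp, hp'⟩ := h
    refine supp _ ⟨_, List.mem_map_of_mem hp, ?_⟩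
    rwa [dist_rel (rel_of (h1 p hp))] at hp'
  · rfl

theorem tl_coc {τ : List (N × N) → k} {ρ ε : ℝ} {n : ℕ} (coc : Coc univ ε n τ)
    (supp : ∀ l, (∃ p ∈ l, ρ ≤ dist p.1 p.2) → τ l = 0) (hρ : 0 ≤ ρ) (h : ρ + 2 * ε ≤ m.r) :
    Coc univ ε n (m.tl Q τ) := by
  intro l hl hf
  have hε : 0 < ε := by
    match l, hl with
    | p :: _, _ => simpa using hf.2 p (by simp) p (by simp)
  by_cases h1 : ∀ p ∈ l, dist p.1 p.2 < m.r
  · rw [dl_congr (f := m.tl Q τ) (g := fun l' => τ (l'.map (Prod.map Cv.a Cv.a)))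
      (fun l' _ h2 => if_pos fun p hp => h1 p (h2 p hp)), N929.dl_map]
    refine coc _ (by simpa using hl) ⟨fun _ _ => mem_univ _, fun x hx y hy => ?_⟩
    obtain ⟨b, hb, rfl⟩ := List.mem_map.1 hx
    obtain ⟨d, hd, rfl⟩ := List.mem_map.1 hy
    have := hf.2 b hb d hd
    rw [Prod.dist_eq, max_lt_iff] at this ⊢
    exact ⟨((lt_iff (by linarith)).1 this.1).1, ((lt_iff (by linarith)).1 this.2).1⟩
  · push Not at h1
    obtain ⟨p, hp, hp'⟩ := h1
    refine N929.dl_eq_zero fun l' h2 h3 => tl_supp supp _ ?_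
    match l', h2, h3 with
    | [], h2, _ => simp [hl] at h2
    | p' :: _, _, h3 =>
      refine ⟨p', by simp, ?_⟩
      have := hf.2 p hp p' (h3 p' (by simp))
      rw [Prod.dist_eq, max_lt_iff] at this
      linarith [dist_triangle4 p.1 p'.1 p'.2 p.2, dist_comm p.2 p'.2, this.1, this.2]

theorem tl_slc {τ : List (N × N) → k} {ρ ε : ℝ} {j : ℕ}
    (supp : ∀ l, (∃ p ∈ l, ρ ≤ dist p.1 p.2) → τ l = 0) (hρ : 0 ≤ ρ) (h : ρ + ε ≤ m.r)
    {z : Ch k N} (hz : z ∈ Sp k fun l => l.length = j + 1 ∧ Fine univ ε l) (y : Cv m Q) :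
    ∀ᶠ S in atTop, ev (slc (m.tl Q τ) y) (m.zS S z) = ev (slc τ y.a) z := by
  classical
  filter_upwards [eventually_ge_atTop (nb_fin (m := m) (finite_singleton y.q)).toFinset] with S hS
  rw [ev_zS]
  refine ev_congr (fun l hl => ?_) hz
  match l, hl with
  | a :: l, hl =>
    have hε : 0 < ε := by simpa using hl.2.2 a (by simp) a (by simp)
    have e : ∀ q : Q, ((m.lL q (a :: l)).map fun x => (x, y)).map (Prod.map Cv.a Cv.a) =
        (a :: l).map fun x => (x, y.a) := fun q => by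
      simp only [lL, List.map_map]; rfl
    simp only [slc, tl, e]
    by_cases h1 : dist a y.a < ρ
    · have h2 : dist a y.a < m.r := by linarith
      rw [Finset.sum_eq_single_of_mem (m.c a y.a • y.q), if_pos]
      · intro p hp
        obtain ⟨x, hx, rfl⟩ := List.mem_map.1 hp
        obtain ⟨b, hb, rfl⟩ := List.mem_map.1 hx
        have h3 := hl.2.2 a (by simp) b hb
        have h4 : dist y.a b < m.r := by linarith [dist_triangle_left y.a b a]
        rw [lf_lf y.q (by rwa [dist_comm]) h4 (by linarith), dist_comm]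
        exact (lt_iff le_rfl).2 ⟨h4, rfl⟩
      · refine hS ((Finite.mem_toFinset _).2 ⟨y.a, a, by rwa [dist_comm], ?_⟩)
        rw [← mul_smul, m.inv (by rwa [dist_comm]), one_smul]
        rfl
      · intro q _ hq
        refine if_neg fun h3 => hq ?_
        have h4 := (rel_of (h3 (m.lf a q a, y) (by simp [lL]))).symm.2
        simpa [lf, m.self] using h4
    · have h2 : τ ((a :: l).map fun x => (x, y.a)) = 0 := supp _ ⟨(a, y.a), by simp, not_lt.1 h1⟩
      simp only [h2, ite_self, Finset.sum_const_zero]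

/-- Fibre integrals have compact support. -/
theorem sm_fib {c : Ch k (Cv m Q)} {i j : ℕ} (hc : c ∈ Sp k (Ln i))
    {F : List (Cv m Q × Cv m Q) → k}
    (hF : ∀ l, l.length + 1 = j + i → F l ≠ 0 → ∃ p ∈ l, dist p.1 p.2 < m.r) (ε : ℝ) :
    Sm ε j (N929.fib c F) := by
  obtain ⟨T, h1, h2⟩ := exists_supp c
  refine ⟨m.nb (Cv.q '' T), nb_fin (h1.image _), fun l hl _ h => ?_⟩
  by_contra hn
  refine h (N929.fib_eq_zero (sp_and hc h2) fun t ht l' hl' => by_contra fun e => hn ?_)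
  obtain ⟨p, hp, hp'⟩ := hF l' (by rw [hl'.1, hl, ht.1]) e
  exact ⟨p.1, (hl'.2 p hp).1, mem_nb hp' ⟨_, ht.2 _ (hl'.2 p hp).2, rfl⟩⟩

variable (m Q) in
/-- **The locally finite fundamental cycle.** -/
theorem exists_lf [CompactSpace N] [ConnectedSpace N] {n : ℕ} (loc : Ch2.D246.LocEuc N (n + 1))
    {w : List N → k} (hw : CocL univ (n + 1) w) (hw0 : ¬ ExL univ (n + 1) w) {ρ₀ : ℝ}
    (hρ₀ : 0 < ρ₀) : ∃ (τ : List (Cv m Q × Cv m Q) → k) (ρ ε : ℝ), 0 < ε ∧ ε ≤ m.r ∧ ρ ≤ ρ₀ ∧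
      ρ ≤ m.r ∧ Coc univ ε (n + 1) τ ∧ (∀ l, (∃ p ∈ l, ρ ≤ dist p.1 p.2) → τ l = 0) ∧
      ∀ δ₀ > 0, ∃ δ > 0, δ ≤ δ₀ ∧ δ ≤ ε ∧ ∃ (z : Ch k N) (d : k), d ≠ 0 ∧ bd z = 0 ∧
        z ∈ Sp k (fun l => l.length = n + 2 ∧ Fine univ δ l) ∧
        ∀ y, ∀ᶠ S in atTop, ev (slc τ y) (m.zS S z) = d := by
  have hr := m.pos
  obtain ⟨τ, hτ⟩ := Ch2.D246.exists_tau (Ch2.ok _) (by omega) loc hw hw0
    (lt_min hρ₀ (by positivity : 0 < m.r / 3))
  obtain ⟨y₀⟩ : Nonempty N := inferInstance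
  obtain ⟨gτ, -, ετ, hετ, hτ⟩ := hτ y₀
  have a1 := min_le_right ρ₀ (m.r / 3)
  have a2 := min_le_right τ.ε (m.r / 3)
  have a3 := lt_min hρ₀ (by positivity : 0 < m.r / 3)
  have a4 := lt_min τ.hε (by positivity : 0 < m.r / 3)
  refine ⟨m.tl Q τ.f, min ρ₀ (m.r / 3), min τ.ε (m.r / 3), a4, by linarith, min_le_left _ _,
    by linarith, tl_coc (τ.coc.mono subset_rfl (min_le_left _ _)) τ.supp a3.le (by linarith),
    tl_supp τ.supp, fun δ₀ hδ₀ => ?_⟩
  obtain ⟨δ, hδ, r1, r2, r3⟩ : ∃ δ > 0, δ ≤ δ₀ ∧ δ ≤ min τ.ε (m.r / 3) ∧ δ ≤ ετ :=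
    ⟨min (min δ₀ ετ) (min τ.ε (m.r / 3)), lt_min (lt_min hδ₀ hετ) a4,
      (min_le_left _ _).trans (min_le_left _ _), min_le_right _ _,
      (min_le_left _ _).trans (min_le_right _ _)⟩
  obtain ⟨z, hz, hzw⟩ := not_ex_iff.1 hw0 δ hδ
  have hbz : bd z = 0 := bd_eq_zero hz (by omega)
  refine ⟨δ, hδ, r1, r2, z, ev w z, hzw, hbz, hz.1, fun y => ?_⟩
  have hs : ev (slc τ.f y.a) z = ev w z := by
    refine (slice_const (by omega) τ.hε (r2.trans (min_le_left _ _)) τ.coc hz y.a y₀).trans ?_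
    rw [ev_congr (g := fun l => w l + dl gτ l) (fun l hl => by
      rw [← hτ l hl.1 (hl.2.mono subset_rfl r3)]; ring) hz.1, ev_add_fun, ev_dl, hbz, map_zero,
      add_zero]
  rw [← hs]
  exact tl_slc τ.supp a3.le (by linarith) hz.1 y

end Md

end Vale.Agent.P216TE
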