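import Vale.Agent.P216TE.LF
import Vale.Agent.P216TE.Defs
import Vale.Agent.P216M.Star

/-!
# Duality on coverings: no compactly supported classes, no cycles
-/

set_option linter.all false

open Set Filter Finsupp

noncomputable section

namespace Vale.Agent.P216TE

open Vale.Agent.P216 Vale.Agent.P216.H126T Vale.Agent.P216M
open Vale.Agent.P216.Sl Vale.Agent.P216.PS
open Vale.Agent.P216.N929 (Fine Coc)

variable {k : Type} [Field k]

theorem coc_nrm {Y : Type} [MetricSpace Y] {ε : ℝ} {q : ℕ} {u : List Y → k}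
    (hu : Coc univ ε q u) : Coc univ ε q (nrm u) := fun l hl hf => by
  rw [dl_nrm]
  exact nrm_eq_zero fun l' h1 h2 => hu l' (h1.trans hl) (hf.sub h2)

theorem ev_nrm' {Y : Type} [MetricSpace Y] {ε : ℝ} {q : ℕ} {u : List Y → k}
    (hu : Coc univ ε q u) {c : Ch k Y} (hc : c ∈ Sp k fun l => l.length = q + 1 ∧ Fine univ ε l)
    (hb : bd c = 0) : ev (nrm u) c = ev u c := by
  rw [ev_congr (g := fun l => u l + dl (hmt u) l) (fun l hl => ?_) hc, ev_add_fun, ev_dl, hb,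
    map_zero, add_zero]
  have := nrm_sub u l
  rw [hmt_eq_zero (f := dl u) fun l' h1 h2 => hu l' (by rw [h1, hl.1]) (hl.2.sub h2)] at this
  linear_combination this

theorem cap_mem {Y : Type} [MetricSpace Y] {ε : ℝ} {p q : ℕ} (u : List Y → k) {z : Ch k Y}
    (hz : z ∈ Sp k fun l => l.length = p + q ∧ Fine univ ε l) :
    cap q u z ∈ Sp k fun l => l.length = p ∧ Fine univ ε l :=
  map_mem _ (fun s hs => by
    rw [cap_single]
    refine single_mem ⟨?_, hs.2.sub fun x hx => List.mem_of_mem_drop hx⟩ _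
    rw [List.length_drop, hs.1]; omega) hz

namespace Md

variable {G N : Type} [Group G] [MetricSpace N] {m : Md G N} {Q : Type} [MulAction G Q]

theorem sm_cup {ε : ℝ} {p : ℕ} (q : ℕ) (u : List (Cv m Q) → k) {g : List (Cv m Q) → k}
    (h : Sm ε p g) : Sm ε (p + q) (N929.cup q u g) := by
  obtain ⟨S, h1, h2⟩ := h
  refine ⟨S, h1, fun l a b c => ?_⟩
  obtain ⟨x, hx, hx'⟩ := h2 (l.drop q) (by rw [List.length_drop]; omega)
    (b.sub fun x hx => List.mem_of_mem_drop hx) (right_ne_zero_of_mul c)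
  exact ⟨x, List.mem_of_mem_drop hx, hx'⟩

theorem near_of {τ : List (Cv m Q × Cv m Q) → k} {ρ : ℝ} (hρ : ρ ≤ m.r)
    (supp : ∀ l, (∃ p ∈ l, ρ ≤ dist p.1 p.2) → τ l = 0) {l : List (Cv m Q × Cv m Q)} {j : ℕ}
    (hj : j < l.length) (h : τ (l.drop j) ≠ 0) : ∃ p ∈ l, dist p.1 p.2 < m.r := by
  obtain ⟨p, hp⟩ := List.exists_mem_of_length_pos (l := l.drop j) (by rw [List.length_drop]; omega)
  exact ⟨p, List.mem_of_mem_drop hp, (not_le.1 fun e => h (supp _ ⟨p, hp, e⟩)).trans_le hρ⟩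

variable (m Q k) in
/-- no compactly supported cohomology in degree `p` -/
def NoC (p : ℕ) : Prop := ∀ ε > 0, ∃ δ > 0, ∀ f : List (Cv m Q) → k, Coc univ ε p f →
  Sm ε (p + 1) f → ∃ g, Sm δ p g ∧ ∀ l, l.length = p + 1 → Fine univ δ l → f l = dl g l

variable (m Q k) in
/-- no cohomology in degree `q` -/
def NoH (q : ℕ) : Prop := ∀ ε > 0, ∃ δ > 0, ∀ u : List (Cv m Q) → k, Coc univ ε q u →
  ∀ c ∈ Sp k fun l => l.length = q + 1 ∧ Fine univ δ l, bd c = 0 → ev u c = 0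

/-- **Duality.** -/
theorem pd_a [CompactSpace N] [ConnectedSpace N] {n p q : ℕ} (loc : Ch2.D246.LocEuc N (n + 1))
    {w : List N → k} (hw : CocL univ (n + 1) w) (hw0 : ¬ ExL univ (n + 1) w) (hq : 1 ≤ q)
    (hpq : p + q = n + 1) (HC : m.NoC k Q p) : m.NoH k Q q := by
  intro εu hεu
  obtain ⟨τ, ρ, ε, hε, e1, e2, e3, coc, supp, H⟩ := m.exists_lf Q loc hw hw0
    (by positivity : 0 < εu / 4)
  obtain ⟨δ₁, hδ₁, HC⟩ := HC ε hε
  obtain ⟨δ, hδ, d1, d2, z, d, hd, hbz, hz, hs⟩ := H (min δ₁ (εu / 4)) (lt_min hδ₁ (by positivity))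
  have d3 := d1.trans (min_le_left _ _)
  have d4 := d1.trans (min_le_right _ _)
  have d5 := d2.trans e1
  refine ⟨δ, hδ, fun u₀ hu₀ c hc hbc => ?_⟩
  rw [← ev_nrm' hu₀ (Sp_mono (fun l hl => ⟨hl.1, hl.2.mono subset_rfl (by linarith)⟩) hc) hbc]
  have hu := coc_nrm hu₀
  set u := nrm u₀
  have hc1 : c ∈ Sp k (Ln (q + 1)) := Sp_mono (fun l hl => hl.1) hc
  obtain ⟨g, hg, hg'⟩ := HC (N929.fib c τ) (fun l hl hf => by
    rw [dl_fib' hc1 τ hl, hbc, map_zero, map_zero, mul_zero, add_zero]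
    refine N929.fib_eq_zero hc fun t ht l' hl' => coc _ ?_ (fine_prod hf ht.2 le_rfl d2 hl')
    have := hl'.1
    rw [hl, ht.1] at this
    omega) (sm_fib hc1 (fun l hl h => near_of e3 supp (j := 0) (by omega) h) ε)
  obtain ⟨T, hT, hT'⟩ := exists_supp c
  have s1 : Sm δ (n + 1) (N929.fib c (N929.cup (q - 1) (pru u) τ)) :=
    sm_fib hc1 (fun l hl h => near_of e3 supp (j := q - 1) (by omega) (right_ne_zero_of_mul h)) δ
  have s2 : Sm δ (n + 1) (N929.cup q u g) := hpq ▸ sm_cup q u (hg.mono d3)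
  obtain ⟨S, a1, a2, a3⟩ := (((eventually_all_finite hT).2 fun y _ => hs y).and
    ((bd_far d5 hz hbz s1).and (bd_far d5 hz hbz s2))).exists
  have hZ := zS_mem d5 hz S
  have M := master hq (by omega) coc supp (nrm_Nrm u₀) hu d2 (by linarith) hZ
    (Sp_mono (fun l hl => ⟨hl.1, fun y hy => a1 y (hl.2 y hy)⟩) (sp_and hc hT'))
  have e : ev (N929.fib c τ) (cap q u (m.zS S z)) = 0 := by
    rw [ev_congr (fun l hl => hg' l hl.1 (hl.2.mono subset_rfl d3))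
      (cap_mem (p := p + 1) u (by rwa [show p + 1 + q = n + 2 by omega])), ev_cap,
      ev_congr (g := fun l => (-1 : k) ^ q * dl (N929.cup q u g) l) (fun l hl => ?_) hZ,
      ev_smul_fun, ev_dl, a3, mul_zero]
    rcases Nat.eq_zero_or_pos p with rfl | hp
    · have g0 : g [] = 0 := by
        obtain ⟨S, -, h⟩ := hg
        by_contra e
        simpa using h [] rfl ⟨by simp, by simp⟩ e
      obtain ⟨y, hy⟩ := List.length_eq_one_iff.1
        (show (l.drop q).length = 1 by rw [List.length_drop, hl.1]; omega)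
      rw [N929.dl_eq_zero fun l' h _ => by
        rw [N929.cup, List.drop_of_length_le (by have := hl.1; omega), g0, mul_zero]]
      rw [N929.cup, hy, N929.dl_cons, N929.dl_nil, g0]
      simp
    · rw [N929.dl_cup q u g l (by rw [hl.1]; omega), hu _ (by rw [List.length_take, hl.1]; omega)
        ((hl.2.sub fun x hx => List.mem_of_mem_take hx).mono subset_rfl (by linarith)), zero_mul,
        zero_add, ← mul_assoc, ← mul_pow]
      simp [N929.cup]
  rw [a2, e, hbc, map_zero, map_zero] at M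
  simpa [hd] using M

theorem noC_zero [Nonempty N] [Infinite G] : m.NoC k G 0 := by
  refine fun ε hε => ⟨ε, hε, fun f hf ⟨S, h1, h2⟩ => ⟨fun _ => 0, ⟨∅, finite_empty, by simp⟩,
    fun l hl _ => ?_⟩⟩
  obtain ⟨x, rfl⟩ := List.length_eq_one_iff.1 hl
  obtain ⟨g, hg⟩ := h1.exists_notMem
  rw [N929.dl_eq_zero fun _ _ _ => rfl, const hε (F := fun x => f [x]) (fun x y h => by
    have := hf _ rfl (fine_pair hε h)
    rw [dl_pair] at this
    linear_combination -this) x ⟨x.a, g⟩]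
  by_contra e
  exact hg (by simpa using h2 _ rfl ⟨by simp, by simpa using hε⟩ e)

variable (m k) in
/-- primitives on the universal covering -/
theorem prim {ε : ℝ} (hε : 0 < ε) : ∃ δ > 0, δ ≤ ε ∧ ∀ f : List (Cv m G) → k, Coc univ ε 1 f →
    ∃ Θ : Cv m G → k, ∀ x y, dist x y < δ → f [x, y] = Θ y - Θ x := by
  obtain ⟨δ, hδ, H⟩ := m.dev hε
  refine ⟨min δ ε, lt_min hδ hε, min_le_right _ _, fun f hf => ?_⟩
  obtain ⟨W, hW⟩ := H (Multiplicative k) (fun x y => Multiplicative.ofAdd (f [x, y]))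
    fun x y z h1 h2 h3 => by
      have h4 := hf _ rfl (fine_triple hε h1 h2 h3)
      rw [dl_triple] at h4
      rw [← ofAdd_add]
      congr 1
      linear_combination h4
  exact ⟨fun x => (W x).toAdd, fun x y h => by simp [hW x y (h.trans_le (min_le_left _ _))]⟩

variable {H : Subgroup G}

variable (H) in
/-- the projection -/
def pr : Cv m G → Cv m (G ⧸ H) := mq QuotientGroup.mk

theorem dist_pr {x y : Cv m G} {ε : ℝ} (h : dist x y < ε) : dist (pr H x) (pr H y) < ε :=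
  dist_mq (fun _ _ => rfl) h

theorem pr_dk {h : G} (hh : h ∈ H) (x : Cv m G) : pr H (dk h x) = pr H x :=
  Cv.ext rfl (QuotientGroup.mk_mul_of_mem _ hh)

theorem fine_map {Y Z : Type} [MetricSpace Y] [MetricSpace Z] {f : Y → Z} {ε : ℝ}
    (hf : ∀ x y, dist x y < ε → dist (f x) (f y) < ε) {l : List Y} (h : Fine univ ε l) :
    Fine univ ε (l.map f) := by
  refine ⟨fun _ _ => mem_univ _, fun x hx y hy => ?_⟩
  obtain ⟨b, hb, rfl⟩ := List.mem_map.1 hx
  obtain ⟨d, hd, rfl⟩ := List.mem_map.1 hy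
  exact hf _ _ (h.2 b hb d hd)

theorem coc_pr {ε : ℝ} {q : ℕ} {f : List (Cv m (G ⧸ H)) → k} (hf : Coc univ ε q f) :
    Coc univ ε q fun l : List (Cv m G) => f (l.map (pr H)) := fun l hl h => by
  rw [N929.dl_map]
  exact hf _ (by simpa using hl) (fine_map (fun _ _ => dist_pr) h)

/-- local sections -/
def sec (y z : Cv m (G ⧸ H)) : Cv m G := m.lf y.a y.q.out z.a

theorem pr_sec {y z : Cv m (G ⧸ H)} (h : dist y z < m.r) : pr H (sec y z) = z := by
  refine Cv.ext rfl ?_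
  rw [(rel_of h).2, ← MulAction.Quotient.mk_smul_out]
  rfl

theorem dist_sec {y z z' : Cv m (G ⧸ H)} {ε : ℝ} (hε : ε ≤ m.r) (h : dist y z < m.r)
    (h' : dist y z' < m.r) (h1 : dist z z' < ε) : dist (sec y z) (sec y z') < ε := by
  have := ((lt_iff hε).1 h1).1
  rwa [sec, sec, dist_lf _ (rel_of h).1 (rel_of h').1 (this.trans_le hε)]

theorem exists_dk {x y : Cv m G} (h : pr H x = pr H y) : ∃ g ∈ H, y = dk g x :=
  ⟨x.q⁻¹ * y.q, QuotientGroup.eq.1 (congrArg Cv.q h),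
    Cv.ext (congrArg Cv.a h).symm (mul_inv_cancel_left _ _).symm⟩

theorem noC_one [CompactSpace N] [Nonempty N] (hE : EndQ H k) : m.NoC k (G ⧸ H) 1 := by
  intro ε hε
  obtain ⟨δ₀, hδ₀, d0, hp⟩ := m.prim k hε
  obtain ⟨δ, hδ, d1, d2⟩ : ∃ δ > 0, δ ≤ δ₀ ∧ δ ≤ m.r :=
    ⟨_, lt_min hδ₀ m.pos, min_le_left _ _, min_le_right _ _⟩
  refine ⟨δ, hδ, fun f hf ⟨S, h1, h2⟩ => ?_⟩
  obtain ⟨Θ, hΘ⟩ := hp _ (coc_pr hf)
  replace hΘ : ∀ x y, dist x y < δ → f [pr H x, pr H y] = Θ y - Θ x :=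
    fun x y h => hΘ x y (h.trans_le d1)
  obtain ⟨a₀⟩ : Nonempty N := inferInstance
  have c1 : ∀ h ∈ H, ∀ x y, Θ (dk h x) - Θ x = Θ (dk h y) - Θ y := fun h hh =>
    const hδ fun x y e => by
      have := hΘ _ _ (dist_dk h e)
      rw [pr_dk hh, pr_dk hh, hΘ _ _ e] at this
      linear_combination this
  have c0 : ∀ x y : Cv m G, dist x y < δ → Θ x ≠ Θ y → (pr H x).q ∈ S ∨ (pr H y).q ∈ S :=
    fun x y e ne => by
      simpa using h2 _ rfl (fine_pair hε (dist_pr (H := H) (e.trans_le (d1.trans d0))))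
        (by rw [hΘ _ _ e]; exact sub_ne_zero.2 ne.symm)
  have c2 : ∀ x, ((fun g : G => (g : G ⧸ H)) '' {g | Θ (dk g x) ≠ Θ ⟨a₀, g⟩}).Finite := by
    have k1 : ∀ x y : Cv m G, dist x y < δ →
        ((fun g : G => (g : G ⧸ H)) '' {g | Θ (dk g x) ≠ Θ ⟨a₀, g⟩}).Finite →
        ((fun g : G => (g : G ⧸ H)) '' {g | Θ (dk g y) ≠ Θ ⟨a₀, g⟩}).Finite := by
      intro x y e hx
      refine (hx.union ((h1.image (x.q⁻¹ • ·)).union (h1.image (y.q⁻¹ • ·)))).subset ?_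
      rintro _ ⟨g, hg, rfl⟩
      by_cases e1 : Θ (dk g x) = Θ (dk g y)
      · exact .inl ⟨g, by rwa [mem_ofPred_eq, e1], rfl⟩
      · rcases c0 _ _ (dist_dk g e) e1 with e2 | e2
        · exact .inr (.inl ⟨_, e2, inv_smul_smul x.q (g : G ⧸ H)⟩)
        · exact .inr (.inr ⟨_, e2, inv_smul_smul y.q (g : G ⧸ H)⟩)
    intro x
    rw [const hδ (F := fun x => ((fun g : G => (g : G ⧸ H)) ''
      {g | Θ (dk g x) ≠ Θ ⟨a₀, g⟩}).Finite)
      (fun x y e => propext ⟨k1 x y e, k1 y x (by rwa [dist_comm])⟩) x ⟨a₀, 1⟩]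
    simp [dk, mq]
  obtain ⟨c3, t, c4⟩ := hE (fun g => Θ ⟨a₀, g⟩) (fun h hh g g' => c1 h hh ⟨a₀, g⟩ ⟨a₀, g'⟩)
    fun s => c2 ⟨a₀, s⟩
  have c5 : ∀ x y, pr H x = pr H y → Θ y = Θ x := fun x y e => by
    obtain ⟨h, hh, rfl⟩ := exists_dk e
    have := c1 h hh x ⟨a₀, 1⟩
    rw [show Θ (dk h ⟨a₀, 1⟩) = Θ ⟨a₀, 1⟩ from c3 h hh 1] at this
    linear_combination this
  have rr : ∀ y : Cv m (G ⧸ H), dist y y < m.r := fun y => by simpa using m.pos
  have c6 : ∀ y z : Cv m (G ⧸ H), dist y z < δ → f [y, z] = Θ (sec z z) - Θ (sec y y) := by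
    intro y z e
    have e' := e.trans_le d2
    have := hΘ _ _ (dist_sec d2 (rr y) e' e)
    rwa [pr_sec (rr y), pr_sec e', c5 (sec z z) (sec y z) (by rw [pr_sec (rr z), pr_sec e'])] at this
  obtain ⟨T, -, hT⟩ := isCompact_univ.elim_nhds_subcover (fun a : N => Metric.ball a δ)
    fun a _ => Metric.ball_mem_nhds a hδ
  have c7 : ∀ a, {q : G ⧸ H | Θ (sec ⟨a, q⟩ ⟨a, q⟩) ≠ t}.Finite := fun a => by
    refine ((c2 ⟨a, 1⟩).union c4).subset fun q hq => ?_
    have e : sec (⟨a, q⟩ : Cv m (G ⧸ H)) ⟨a, q⟩ = dk q.out ⟨a, 1⟩ :=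
      Cv.ext rfl (congrArg (· * q.out) (m.self a))
    by_cases e1 : Θ ⟨a₀, q.out⟩ = t
    · exact .inl ⟨q.out, by rwa [mem_ofPred_eq, e1, ← e], q.out_eq'⟩
    · exact .inr ⟨q.out, e1, q.out_eq'⟩
  refine ⟨P216M.c1 fun y => Θ (sec y y) - t, ⟨S ∪ m.nb (S ∪ ⋃ a ∈ T, {q | Θ (sec ⟨a, q⟩ ⟨a, q⟩) ≠ t}),
    h1.union (nb_fin (h1.union (T.finite_toSet.biUnion fun a _ => c7 a))), fun l hl _ h => ?_⟩,
    fun l hl hf => ?_⟩
  · obtain ⟨y, rfl⟩ := List.length_eq_one_iff.1 hl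
    obtain ⟨a, ha, ha'⟩ := mem_iUnion₂.1 (hT (mem_univ y.a))
    have e : dist y (m.lf y.a y.q a) < δ := (lt_iff d2).2 ⟨ha', rfl⟩
    refine ⟨y, by simp, ?_⟩
    by_cases e1 : f [y, m.lf y.a y.q a] = 0
    · rw [c6 _ _ e, sub_eq_zero] at e1
      refine .inr (mem_nb (e.trans_le d2) (.inr (mem_biUnion ha fun e2 => h ?_)))
      exact sub_eq_zero.2 (e1.symm.trans e2)
    · obtain ⟨p, hp, hp'⟩ := h2 _ rfl (fine_pair hε (e.trans_le (d1.trans d0))) e1
      rcases List.mem_pair.1 hp with rfl | rfl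
      · exact .inl hp'
      · exact .inr (mem_nb (e.trans_le d2) (.inl hp'))
  · obtain ⟨y, z, rfl⟩ := List.length_eq_two.1 hl
    rw [dl_pair, c6 y z (hf.2 y (by simp) z (by simp))]
    simp [P216M.c1]

end Md

end Vale.Agent.P216TE
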