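import Vale.Agent.P216TE.Spl

/-!
# Duality on coverings: no cycles of degree two, one end
-/

set_option linter.all false

open Set Filter Finsupp

noncomputable section

namespace Vale.Agent.P216TE

open Vale.Agent.P216 Vale.Agent.P216.H126T Vale.Agent.P216M
open Vale.Agent.P216.Sl Vale.Agent.P216.PS
open Vale.Agent.P216.N929 (Fine Coc)

variable {k : Type} [Field k]

theorem nrm_c2 {α : Type} {f : α → α → k} (h : ∀ a, f a a = 0) : Nrm (c2 f) := by
  intro l hl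
  match l, hl with
  | [], _ => rfl
  | [_], _ => rfl
  | [a, b], hl =>
    by_cases hab : a = b
    · rw [hab]; exact h b
    · exact absurd (by simp [hab]) hl
  | _ :: _ :: _ :: _, _ => rfl

namespace Md

variable {G N : Type} [Group G] [MetricSpace N] {m : Md G N} {Q : Type} [MulAction G Q]
  {H : Subgroup G}

theorem sub_nb (S : Set Q) (x : Cv m Q) (h : x.q ∈ S) : x.q ∈ m.nb S :=
  mem_nb (by simpa using m.pos) h

/-- **Duality**, second form. -/
theorem pd_b [CompactSpace N] [ConnectedSpace N] (loc : Ch2.D246.LocEuc N 3)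
    {w : List N → k} (hw : CocL univ 3 w) (hw0 : ¬ ExL univ 3 w) (H2 : m.NoH k Q 2)
    {u : List (Cv m Q) → k} (hN : Nrm u) (hu : Coc univ m.r 1 u) (hs : Sm m.r 2 u) :
    ∃ δ > 0, δ ≤ m.r ∧ ∃ S : Set Q, S.Finite ∧
      ∀ c ∈ Sp k fun l : List (Cv m Q) => l.length = 2 ∧ Fine univ δ l,
        bd c ∈ Sp k (fun l => l.length = 1 ∧ ∀ y ∈ l, y.q ∉ S) → ev u c = 0 := by
  have hr := m.pos
  obtain ⟨τ, ρ, ε, hε, e1, e2, e3, coc, supp, H⟩ := m.exists_lf Q loc hw hw0
    (by positivity : 0 < m.r / 4)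
  obtain ⟨δ₁, hδ₁, HC⟩ := H2.fill hε
  obtain ⟨δ, hδ, d1, d2, z, d, hd, hbz, hz, hsl⟩ := H (min δ₁ (m.r / 4))
    (lt_min hδ₁ (by positivity))
  have d3 := d1.trans (min_le_left _ _)
  have d4 := d1.trans (min_le_right _ _)
  have d5 := d2.trans e1
  obtain ⟨Su, u1, u2⟩ := hs
  have u3 : ∀ (j : ℕ) (l : List (Cv m Q)), l.length = j + 2 → Fine univ δ l → u (l.take 2) ≠ 0 →
      ∃ p ∈ l, p.q ∈ Su := fun j l h1 h2 h3 =>
    let ⟨p, hp, hp'⟩ := u2 _ (by rw [List.length_take]; omega)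
      ((h2.sub fun x hx => List.mem_of_mem_take hx).mono subset_rfl d5) h3
    ⟨p, List.mem_of_mem_take hp, hp'⟩
  obtain ⟨S₀, h0⟩ := stab d5 hz (cap 1 u) ⟨Su, u1, fun l h1 h2 h3 => u3 2 l h1 h2 fun e => h3 (by
    simp only [cap_single]; rw [e, single_zero])⟩
  have g1 := cap_mem (p := 3) (q := 1) u (zS_mem d5 hz S₀)
  obtain ⟨b, hb, hbb⟩ := HC _ (Sp_mono (fun l hl => ⟨hl.1, hl.2.mono subset_rfl d3⟩) g1)
    (eq_zero_of_ev fun f => by
      obtain ⟨S, a1, a2⟩ := (h0.and (bd_far (j := 2) d5 hz hbz (B := N929.cup 1 u f)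
        ⟨Su, u1, fun l h1 h2 h3 => u3 1 l h1 h2 (left_ne_zero_of_mul h3)⟩)).exists
      rw [← a1, ← ev_dl, ev_cap, ev_congr (g := fun l => (-1 : k) * dl (N929.cup 1 u f) l)
        (fun l hl => ?_) (zS_mem d5 hz S), ev_smul_fun, ev_dl, a2, mul_zero]
      rw [N929.dl_cup 1 u f l (by rw [hl.1]; omega), hu _ (by rw [List.length_take, hl.1]; omega)
        ((hl.2.sub fun x hx => List.mem_of_mem_take hx).mono subset_rfl d5)]
      simp [N929.cup])
  obtain ⟨Tb, b1, b2⟩ := exists_supp b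
  refine ⟨δ, hδ, d5, m.nb (Cv.q '' Tb ∪ Su), nb_fin ((b1.image _).union u1), fun c hc hbc => ?_⟩
  have hc1 : c ∈ Sp k (Ln (1 + 1)) := Sp_mono (fun l hl => hl.1) hc
  obtain ⟨T, hT, hT'⟩ := exists_supp c
  have s1 : Sm δ 3 (N929.fib c (N929.cup (1 - 1) (pru u) τ)) :=
    sm_fib hc1 (fun l hl h => near_of e3 supp (j := 0) (by omega) (right_ne_zero_of_mul h)) δ
  obtain ⟨S, a1, a2, a3⟩ := (((eventually_all_finite hT).2 fun y _ => hsl y).and
    ((bd_far (j := 2) d5 hz hbz s1).and h0)).exists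
  have hZ := zS_mem d5 hz S
  have M := master (n := 3) le_rfl (by omega) coc supp hN hu d2 (by linarith) hZ
    (Sp_mono (fun l hl => ⟨hl.1, fun y hy => a1 y (hl.2 y hy)⟩) (sp_and hc hT'))
  have e : ev (N929.fib c τ) (bd b) = 0 := by
    rw [← ev_dl]
    refine ev_zero_of (fun l hl => ?_) (sp_and hb b2)
    rw [dl_fib' (p := 2) hc1 τ hl.1.1, N929.fib_eq_zero hc fun t ht l' hl' => coc _ (by
      have := hl'.1
      rw [hl.1.1, ht.1] at this
      omega) (fine_prod hl.1.2 ht.2 le_rfl d2 hl'),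
      show ev τ (sh (single l 1) (bd c)) = 0 from N929.fib_eq_zero hbc fun t ht l' hl' => ?_]
    · simp
    · by_contra e
      obtain ⟨p, hp, hp'⟩ := near_of e3 supp (j := 0) (l := l') (by
        have := hl'.1
        rw [hl.1.1, ht.1] at this
        omega) e
      exact ht.2 _ (hl'.2 p hp).2 (mem_nb (by rwa [dist_comm]) (.inl ⟨_, hl.2 _ (hl'.2 p hp).1, rfl⟩))
  have e' : ev (N929.cup (1 - 1) (pru u) τ) (sh (m.zS S z) (bd c)) = 0 := by
    refine ev_zero_of (P := fun l => l ≠ [] ∧ ∀ p ∈ l, p.2.q ∉ m.nb (Cv.q '' Tb ∪ Su))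
      (fun l hl => ?_) (sh_mem (fun s t l hs ht hl => ⟨fun e => ?_, fun p hp =>
        ht.2 _ (hl.2 p hp).2⟩) hZ hbc)
    · match l, hl with
      | p :: l, hl =>
        by_cases h1 : ρ ≤ dist p.1 p.2
        · exact mul_eq_zero_of_right _ (supp _ ⟨p, by simp, h1⟩)
        have h2 : dist p.1 p.2 < m.r := (not_le.1 h1).trans_le e3
        refine mul_eq_zero_of_left (ev_zero_of (fun l' hl' => by_contra fun e => ?_) (prc_mem [p])) _
        have h3 : ∀ x ∈ l', x = p.1 ∨ x = p.2 := fun x hx => by simpa using hl'.2 x hx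
        obtain ⟨x, hx, hx'⟩ := u2 l' hl'.1 ⟨fun _ _ => mem_univ _, fun x hx y hy => by
          rcases h3 x hx with rfl | rfl <;> rcases h3 y hy with rfl | rfl
          exacts [by simpa using hr, h2, by rwa [dist_comm], by simpa using hr]⟩ e
        refine hl.2 p (by simp) ?_
        rcases h3 x hx with rfl | rfl
        exacts [mem_nb (by rwa [dist_comm]) (.inr hx'), sub_nb _ _ (.inr hx')]
    · have := hl.1
      rw [e, hs.1, ht.1] at this
      simp at this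
  rw [a2, a3, ← hbb, e, e'] at M
  simpa [hd] using M

theorem endQ_of [CompactSpace N] [ConnectedSpace N] (loc : Ch2.D246.LocEuc N 3)
    {w : List N → k} (hw : CocL univ 3 w) (hw0 : ¬ ExL univ 3 w) (H2 : m.NoH k (G ⧸ H) 2) :
    EndQ H k := by
  intro θ h1 h2
  let f : Cv m (G ⧸ H) → Cv m (G ⧸ H) → k := fun y z => θ (sec y z).q - θ y.q.out
  have hf : ∀ x y : Cv m G, dist x y < m.r → f (pr H x) (pr H y) = θ y.q - θ x.q := by
    intro x y e
    obtain ⟨h, hh, a1, a2⟩ := sec_pr (H := H) x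
    simp only [f]
    rw [a2 y e, ← a1, show (dk h y).q = y.q * h from rfl]
    linear_combination h1 h hh y.q x.q
  obtain ⟨δ, hδ, d, S, hS, H3⟩ := pd_b loc hw hw0 H2 (u := c2 f)
    (nrm_c2 fun y => by simp [f, sec, lf, m.self]) (fun l hl hf' => by
      obtain ⟨l, rfl, hl'⟩ := lift_fine le_rfl hf'
      clear hf'
      match l, hl, hl' with
      | [x, y, z], _, hl' =>
        simp only [List.map_cons, List.map_nil, dl_triple, c2]
        rw [hf x y (hl'.2 _ (by simp) _ (by simp)), hf x z (hl'.2 _ (by simp) _ (by simp)),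
          hf y z (hl'.2 _ (by simp) _ (by simp))]
        ring)
    ⟨_, m.fin.biUnion fun s _ => h2 s, fun l hl hf' e => by
      obtain ⟨y, z, rfl⟩ := List.length_eq_two.1 hl
      exact ⟨y, by simp, mem_biUnion (x := m.c z.a y.a)
        ⟨_, _, (rel_of (hf'.2 z (by simp) y (by simp))).1, rfl⟩
        ⟨y.q.out, sub_ne_zero.1 e, y.q.out_eq'⟩⟩⟩
  obtain ⟨a₀⟩ : Nonempty N := inferInstance
  have key : ∀ g g' : G, ((g : G ⧸ H) = g' ∨ (g : G ⧸ H) ∉ S ∧ (g' : G ⧸ H) ∉ S) → θ g' = θ g := by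
    intro g g' h
    obtain ⟨c, hc, hb⟩ := exists_path (k := k) (m := m) hδ ⟨a₀, g⟩ ⟨a₀, g'⟩
    have := H3 _ (mp_mem (fun _ _ => dist_pr (H := H)) hc) (by
      rw [bd_mp, hb, map_sub, mp_single, mp_single]
      rcases h with h | h
      · rw [show List.map (pr H) [(⟨a₀, g'⟩ : Cv m G)] = List.map (pr H) [⟨a₀, g⟩] from
          congrArg (fun q => [(⟨a₀, q⟩ : Cv m (G ⧸ H))]) h.symm, sub_self]
        exact zero_mem _
      · exact sub_mem (single_mem ⟨rfl, by simpa [pr, mq] using h.2⟩ _)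
          (single_mem ⟨rfl, by simpa [pr, mq] using h.1⟩ _))
    rw [ev_mp, ev_congr (g := dl (c1 fun x => θ x.q)) (fun l hl => ?_) hc, ev_dl, hb] at this
    · simpa [c1, sub_eq_zero] using this
    · obtain ⟨x, y, rfl⟩ := List.length_eq_two.1 hl.1
      rw [dl_pair]
      simpa [c1, c2] using hf x y ((hl.2.2 x (by simp) y (by simp)).trans_le d)
  refine ⟨fun h hh g => key _ _ (.inl (QuotientGroup.mk_mul_of_mem _ hh).symm), ?_⟩
  by_cases h : ∃ g : G, (g : G ⧸ H) ∉ S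
  · obtain ⟨g, hg⟩ := h
    refine ⟨θ g, hS.subset ?_⟩
    rintro _ ⟨g', hg', rfl⟩
    exact by_contra fun e => hg' (key _ _ (.inr ⟨hg, e⟩))
  · refine ⟨0, hS.subset ?_⟩
    rintro _ ⟨g', -, rfl⟩
    exact by_contra fun e => h ⟨g', e⟩

end Md

open Vale.Agent.P216T

theorem locEuc (N : Type) [TopologicalSpace N] [T2Space N] [ChartedSpace E3 N] :
    Ch2.D246.LocEuc N 3 := by
  simpa using Ch2.D907.cub E3 N

theorem pda : PdaGoal := by
  intro G _ N _ _ _ k _ h ⟨w, hw, hw0⟩ H hE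
  haveI := h.conn
  haveI := ChartedSpace.locallyConnectedSpace E3 N
  obtain ⟨X, _, _, P, h1, h2⟩ := h
  obtain ⟨m, -⟩ := exists_md h2 h1
  exact Md.split_of (m := m) (Md.pd_a (locEuc N) hw hw0 one_le_two rfl (Md.noC_one hE))

theorem pdb : PdbGoal := by
  intro G _ N _ _ _ k _ h ⟨w, hw, hw0⟩ hE H hs
  haveI := h.conn
  haveI := ChartedSpace.locallyConnectedSpace E3 N
  obtain ⟨X, _, _, P, h1, h2⟩ := h
  obtain ⟨m, -⟩ := exists_md h2 h1
  exact Md.endQ_of (m := m) (locEuc N) hw hw0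
    (Md.noH_of (Md.pd_a (locEuc N) hw hw0 one_le_two rfl (Md.noC_one hE)).bot hs)

end Vale.Agent.P216TE
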