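import Vale.Agent.P216TE.PdA
import Vale.Agent.P216HL.Top

/-!
# The second cohomology of a covering and central extensions
-/

set_option linter.all false

open Set Filter Finsupp

noncomputable section

namespace Vale.Agent.P216TE

open Vale.Agent.P216 Vale.Agent.P216.H126T Vale.Agent.P216M
open Vale.Agent.P216.Sl Vale.Agent.P216.PS
open Vale.Agent.P216.N929 (Fine Coc)

variable {k : Type} [Field k]

theorem mp_mp {α β γ : Type} (f : α → β) (g : β → γ) (c : Ch k α) :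
    mp g (mp f c) = mp (g ∘ f) c :=
  lin_ext_apply (f := (mp g).comp (mp f)) (fun l => by simp) c

theorem mp_mem {Y Z : Type} [MetricSpace Y] [MetricSpace Z] {f : Y → Z} {ε : ℝ} {j : ℕ}
    (hf : ∀ x y, dist x y < ε → dist (f x) (f y) < ε) {c : Ch k Y}
    (h : c ∈ Sp k fun l => l.length = j ∧ Fine univ ε l) :
    mp f c ∈ Sp k fun l => l.length = j ∧ Fine univ ε l :=
  map_mem _ (fun l hl => by
    rw [mp_single]
    exact single_mem ⟨by simpa using hl.1, Md.fine_map hf hl.2⟩ _) h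

namespace Md

variable {G N : Type} [Group G] [MetricSpace N] {m : Md G N} {Q Q' : Type} [MulAction G Q]
  [MulAction G Q'] {H : Subgroup G}

theorem NoH.of {q : ℕ} (h : m.NoH k Q' q) {f : Q → Q'} {g : Q' → Q}
    (hf : ∀ (a : G) q, f (a • q) = a • f q) (hg : ∀ (a : G) q, g (a • q) = a • g q)
    (e : ∀ q, g (f q) = q) : m.NoH k Q q := by
  intro ε hε
  obtain ⟨δ, hδ, h⟩ := h ε hε
  refine ⟨δ, hδ, fun u hu c hc hb => ?_⟩
  have := h (fun l => u (l.map (mq g))) (fun l hl h => by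
    rw [N929.dl_map]
    exact hu _ (by simpa using hl) (fine_map (fun _ _ => dist_mq hg) h)) (mp (mq f) c)
    (mp_mem (fun _ _ => dist_mq hf) hc) (by rw [bd_mp, hb, map_zero])
  rw [ev_mp] at this
  rw [← this]
  congr 2
  funext l
  rw [List.map_map, show (mq g ∘ mq f : Cv m Q → Cv m Q) = id from
    funext fun x => Cv.ext rfl (e _), List.map_id]

theorem NoH.bot {q : ℕ} (h : m.NoH k (G ⧸ (⊥ : Subgroup G)) q) : m.NoH k G q := by
  have e : ∀ g : G, (g : G ⧸ (⊥ : Subgroup G)).out = g := fun g =>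
    inv_mul_eq_one.1 (Subgroup.mem_bot.1 (QuotientGroup.eq.1 (QuotientGroup.out_eq' _)))
  exact h.of (f := QuotientGroup.mk) (g := Quotient.out) (fun _ _ => rfl)
    (fun a q => by rw [← MulAction.Quotient.mk_smul_out, e]) e

theorem NoH.prim {q : ℕ} (h : m.NoH k Q q) {ε : ℝ} (hε : 0 < ε) : ∃ δ > 0, δ ≤ ε ∧ δ ≤ m.r ∧
    ∀ u : List (Cv m Q) → k, Coc univ ε q u →
      ∃ g, ∀ l, l.length = q + 1 ∧ Fine univ δ l → u l = dl g l := by
  obtain ⟨δ, hδ, h⟩ := h ε hε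
  exact ⟨min δ (min ε m.r), lt_min hδ (lt_min hε m.pos),
    (min_le_right _ _).trans (min_le_left _ _), (min_le_right _ _).trans (min_le_right _ _),
    fun u hu => exists_dl_of_cycles fun c hc => h u hu c
      (Sp_mono (fun l hl => ⟨hl.1, hl.2.mono subset_rfl (min_le_left _ _)⟩) hc)⟩

theorem NoH.fill {q : ℕ} (h : m.NoH k Q q) {ε : ℝ} (hε : 0 < ε) : ∃ δ > 0,
    ∀ c ∈ Sp k fun l : List (Cv m Q) => l.length = q + 1 ∧ Fine univ δ l, bd c = 0 →
      ∃ b ∈ Sp k fun l => l.length = q + 2 ∧ Fine univ ε l, bd b = c :=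
  let ⟨δ, hδ, h⟩ := h ε hε
  ⟨δ, hδ, fun c hc hb => P216HL.exists_bd fun f hf => h f hf c hc hb⟩

theorem coc_zero {ε : ℝ} (hε : 0 < ε) {u : List (Cv m G) → k} (hu : Coc univ ε 0 u)
    (x y : Cv m G) : u [x] = u [y] :=
  const hε (F := fun x => u [x]) (fun x y h => by
    have := hu _ rfl (fine_pair hε h)
    rw [dl_pair] at this
    linear_combination -this) x y

theorem noH_zero : m.NoH k G 0 := by
  refine fun ε hε => ⟨ε, hε, fun u hu c hc hb => ?_⟩
  rcases isEmpty_or_nonempty (Cv m G) with hN | ⟨⟨x₀⟩⟩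
  · refine ev_zero_of (fun l hl => ?_) hc
    obtain ⟨x, rfl⟩ := List.length_eq_one_iff.1 hl.1
    exact isEmptyElim x
  rw [ev_congr (g := dl fun _ => u [x₀]) (fun l hl => ?_) hc, ev_dl, hb, map_zero]
  obtain ⟨x, rfl⟩ := List.length_eq_one_iff.1 hl.1
  rw [N929.dl_cons, N929.dl_nil, sub_zero, coc_zero hε hu x x₀]

theorem noH_one : m.NoH k G 1 := by
  intro ε hε
  obtain ⟨δ, hδ, -, h⟩ := m.prim k hε
  refine ⟨δ, hδ, fun u hu c hc hb => ?_⟩
  obtain ⟨Θ, hΘ⟩ := h u hu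
  rw [ev_congr (g := dl (c1 Θ)) (fun l hl => ?_) hc, ev_dl, hb, map_zero]
  obtain ⟨x, y, rfl⟩ := List.length_eq_two.1 hl.1
  rw [dl_pair, hΘ x y (hl.2.2 x (by simp) y (by simp))]
  simp [c1]

theorem exists_path {δ : ℝ} (hδ : 0 < δ) (x y : Cv m G) :
    ∃ c ∈ Sp k fun l : List (Cv m G) => l.length = 0 + 2 ∧ Fine univ δ l,
      bd c = single [y] 1 - single [x] 1 :=
  P216HL.exists_bd fun f hf => by simp [coc_zero hδ hf x y]

theorem sec_pr (x : Cv m G) : ∃ h ∈ H, x.q * h = (pr H x).q.out ∧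
    ∀ y, dist x y < m.r → sec (pr H x) (pr H y) = dk h y := by
  obtain ⟨h, hh⟩ := QuotientGroup.mk_out_eq_mul H x.q
  refine ⟨h, h.2, hh.symm, fun y e => Cv.ext rfl ?_⟩
  show m.c y.a x.a * (x.q : G ⧸ H).out = y.q * h
  rw [hh, (rel_of e).2, smul_eq_mul, mul_assoc]

theorem lift_fine {ε : ℝ} (hε : ε ≤ m.r) {l : List (Cv m (G ⧸ H))} (hl : Fine univ ε l) :
    ∃ l' : List (Cv m G), l'.map (pr H) = l ∧ Fine univ ε l' := by
  match l, hl with
  | [], _ => exact ⟨[], rfl, by simp, by simp⟩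
  | y :: l, hl =>
    have h : ∀ z ∈ y :: l, dist y z < m.r := fun z hz => (hl.2 y (by simp) z hz).trans_le hε
    refine ⟨(y :: l).map (sec y), ?_, fun _ _ => mem_univ _, fun x hx x' hx' => ?_⟩
    · rw [List.map_map]
      exact (List.map_congr_left fun z hz => pr_sec (h z hz)).trans (List.map_id _)
    · obtain ⟨b, hb, rfl⟩ := List.mem_map.1 hx
      obtain ⟨d, hd, rfl⟩ := List.mem_map.1 hx'
      exact dist_sec hε (h b hb) (h d hd) (hl.2 b hb d hd)

variable (H) in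
/-- the canonical developing map -/
def om (g : G) : H := ⟨g⁻¹ * (g : G ⧸ H).out, QuotientGroup.eq.1 (QuotientGroup.out_eq' _).symm⟩

theorem om_mul (g : G) (h : H) : om H (g * h) = h⁻¹ * om H g := Subtype.ext (by
  show (g * h)⁻¹ * ((g * h : G) : G ⧸ H).out = (h : G)⁻¹ * (g⁻¹ * (g : G ⧸ H).out)
  rw [QuotientGroup.mk_mul_of_mem _ h.2, mul_inv_rev, mul_assoc])

theorem split_of [Nonempty N] (h : m.NoH k (G ⧸ H) 2) : Split H k := by
  intro σ
  let κ : Cv m (G ⧸ H) → Cv m (G ⧸ H) → H := fun y z => om H (sec y z).q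
  have hκ : ∀ x y : Cv m G, dist x y < m.r → κ (pr H x) (pr H y) = (om H x.q)⁻¹ * om H y.q := by
    intro x y e
    obtain ⟨h, hh, h1, h2⟩ := sec_pr (H := H) x
    have : om H x.q = ⟨h, hh⟩ := Subtype.ext (inv_mul_eq_iff_eq_mul.2 h1.symm)
    rw [this, ← om_mul]
    exact congrArg (fun x => om H x.q) (h2 y e)
  obtain ⟨δ, hδ, -, d, h⟩ := h.prim m.pos
  obtain ⟨t, ht⟩ := h (c3 fun x y z => σ.f (κ x y) (κ y z)) fun l hl hf => by
    obtain ⟨l, rfl, hf'⟩ := lift_fine le_rfl hf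
    clear hf
    match l, hl, hf' with
    | [a, b, d, e], _, hf =>
      simp only [List.map_cons, List.map_nil, dl_quad, c3]
      rw [hκ a b (hf.2 _ (by simp) _ (by simp)), hκ a d (hf.2 _ (by simp) _ (by simp)),
        hκ b d (hf.2 _ (by simp) _ (by simp)), hκ b e (hf.2 _ (by simp) _ (by simp)),
        hκ d e (hf.2 _ (by simp) _ (by simp))]
      have := σ.co ((om H a.q)⁻¹ * om H b.q) ((om H b.q)⁻¹ * om H d.q) ((om H d.q)⁻¹ * om H e.q)
      simpa only [mul_assoc, mul_inv_cancel_left] using this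
  obtain ⟨δ', hδ', hd⟩ := m.dev hδ
  obtain ⟨W, hW⟩ := hd (CExt σ) (fun x y => ⟨-t [pr H x, pr H y], (om H x.q)⁻¹ * om H y.q⟩)
    fun x y z h1 h2 h3 => by
      have h4 := ht _ ⟨rfl, fine_triple hδ (dist_pr (H := H) h1) (dist_pr h2) (dist_pr h3)⟩
      rw [dl_triple, c3, hκ _ _ (h1.trans_le d), hκ _ _ (h3.trans_le d)] at h4
      refine CExt.ext ?_ ?_
      · simp only [CExt.mul_s, h4]; ring
      · simp only [CExt.mul_g, mul_assoc, mul_inv_cancel_left]
  obtain ⟨a₀⟩ : Nonempty N := inferInstance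
  let x₀ : Cv m G := ⟨a₀, 1⟩
  have k1 : ∀ (h : H) x, W (dk h x) * (W x)⁻¹ = W (dk h x₀) * (W x₀)⁻¹ := fun h x =>
    const hδ' (F := fun x => W (dk h x) * (W x)⁻¹) (fun x y e => by
      rw [hW _ _ e, hW _ _ (dist_dk (h : G) e), pr_dk h.2, pr_dk h.2]
      have : (om H (dk (h : G) x).q)⁻¹ * om H (dk (h : G) y).q = (om H x.q)⁻¹ * om H y.q := by
        show (om H (x.q * h))⁻¹ * om H (y.q * h) = _
        rw [om_mul, om_mul]; group
      rw [this]; group) x x₀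
  have k2 : ∀ x, (W x).g * (om H x.q)⁻¹ = (W x₀).g * (om H x₀.q)⁻¹ := fun x =>
    const hδ' (F := fun x => (W x).g * (om H x.q)⁻¹) (fun x y e => by
      rw [hW _ _ e, CExt.mul_g]; group) x x₀
  let E : CExt σ := ⟨0, (W x₀).g * (om H x₀.q)⁻¹⟩
  let φ : H → CExt σ := fun h => E⁻¹ * (W (dk (h⁻¹ : H) x₀) * (W x₀)⁻¹) * E
  have k3 : ∀ g h, φ (g * h) = φ g * φ h := fun g h => by
    have := k1 g⁻¹ (dk (h⁻¹ : H) x₀)
    rw [dk_dk, mul_inv_eq_iff_eq_mul] at this
    simp only [φ, mul_inv_rev, Subgroup.coe_mul, this]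
    group
  have k4 : ∀ h, (φ h).g = h := fun h => by
    have := k2 (dk (h⁻¹ : H) x₀)
    rw [show (dk ((h⁻¹ : H) : G) x₀).q = x₀.q * (h⁻¹ : H) from rfl, om_mul,
      mul_inv_eq_iff_eq_mul] at this
    show ((W x₀).g * (om H x₀.q)⁻¹)⁻¹ * ((W (dk (h⁻¹ : H) x₀)).g * (W x₀).g⁻¹) *
      ((W x₀).g * (om H x₀.q)⁻¹) = h
    rw [this]; group
  refine ⟨fun h => -(φ h).s, fun g h => ?_⟩
  beta_reduce
  rw [k3, CExt.mul_s (φ g), k4, k4]
  ring

theorem noH_of [Nonempty N] (h : m.NoH k G 2) (hs : Split H k) : m.NoH k (G ⧸ H) 2 := by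
  intro ε hε
  obtain ⟨δ₁, hδ₁, d1, d2, h⟩ := h.prim hε
  obtain ⟨δ, hδ, d3, hp⟩ := m.prim k hδ₁
  refine ⟨δ, hδ, fun u hu c hc hb => ?_⟩
  obtain ⟨β, hβ⟩ := h _ (coc_pr hu)
  obtain ⟨a₀⟩ : Nonempty N := inferInstance
  let x₀ : Cv m G := ⟨a₀, 1⟩
  have k0 : ∀ h : H, ∃ γ : Cv m G → k, γ x₀ = 0 ∧ ∀ x y, dist x y < δ →
      β [dk h x, dk h y] - β [x, y] = γ y - γ x := fun h => by
    obtain ⟨γ, hγ⟩ := hp (fun l => β (l.map (dk h)) + (-1) * β l) fun l hl hf => by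
      rw [N929.dl_add_fun, N929.dl_smul_fun, N929.dl_map, ← hβ l ⟨hl, hf⟩,
        ← hβ _ ⟨by simpa using hl, fine_map (fun _ _ => dist_dk (h : G)) hf⟩, List.map_map,
        show pr H ∘ dk h = pr H from funext (pr_dk h.2)]
      ring
    refine ⟨fun x => γ x - γ x₀, sub_self _, fun x y e => ?_⟩
    have := hγ x y e
    simp only [List.map_cons, List.map_nil] at this
    linear_combination this
  choose γ g0 hγ using k0
  have k1 : ∀ (g h : H) x, γ (g * h) x - γ h (dk g x) - γ g x = -γ h (dk g x₀) := fun g h x => by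
    rw [const hδ (F := fun x => γ (g * h) x - γ h (dk g x) - γ g x) (fun x y e => by
      have a1 := hγ h _ _ (dist_dk (g : G) e)
      rw [dk_dk, dk_dk] at a1
      have a2 := hγ (g * h) x y e
      rw [Subgroup.coe_mul] at a2
      linear_combination a2 - a1 - hγ g x y e) x x₀, g0, g0]
    ring
  have k2 : ∀ x, γ 1 x = 0 := fun x => by
    rw [const hδ (F := γ 1) (fun x y e => by
      have := hγ 1 x y e
      rw [OneMemClass.coe_one, dk_one, dk_one] at this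
      linear_combination this) x x₀, g0]
  obtain ⟨t, ht⟩ := hs ⟨fun g h => γ h (dk g x₀), fun h => by
    rw [OneMemClass.coe_one, dk_one, g0], fun g => k2 _, fun g h l => by
      have := k1 h l (dk g x₀)
      rw [dk_dk] at this
      linear_combination this⟩
  replace ht : ∀ g h : H, γ h (dk g x₀) = t g + t h - t (g * h) := ht
  let η : Cv m G → k := fun x => γ (om H x.q)⁻¹ (dk (om H x.q) x) - t (om H x.q)⁻¹
  have k3 : ∀ (h : H) x, η (dk h x) = η x + γ h x - t h := fun h x => by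
    have a1 := k1 (om H x.q)⁻¹ h (dk (om H x.q) x)
    rw [ht, dk_dk, Subgroup.coe_inv, mul_inv_cancel, dk_one] at a1
    simp only [η]
    rw [show (dk (h : G) x).q = x.q * h from rfl, om_mul, dk_dk, mul_inv_rev, inv_inv, Subgroup.coe_mul,
      Subgroup.coe_inv, mul_inv_cancel_left]
    linear_combination a1
  let b : Cv m (G ⧸ H) → Cv m (G ⧸ H) → k := fun y z =>
    β [sec y y, sec y z] - (η (sec y z) - η (sec y y))
  have k4 : ∀ x y : Cv m G, dist x y < δ → b (pr H x) (pr H y) = β [x, y] - (η y - η x) := by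
    intro x y e
    obtain ⟨h, hh, -, h2⟩ := sec_pr (H := H) x
    simp only [b]
    rw [h2 x (by simpa using m.pos), h2 y (e.trans_le (d3.trans d2))]
    linear_combination hγ ⟨h, hh⟩ x y e - k3 ⟨h, hh⟩ y + k3 ⟨h, hh⟩ x
  rw [ev_congr (g := dl (c2 b)) (fun l hl => ?_) hc, ev_dl, hb, map_zero]
  obtain ⟨l, rfl, hf⟩ := lift_fine (d3.trans d2) hl.2
  rw [hβ l ⟨by simpa using hl.1, hf.mono subset_rfl d3⟩]
  match l, hl.1, hf with
  | [x, y, z], _, hf =>
    simp only [List.map_cons, List.map_nil, dl_triple, c2]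
    rw [k4 x y (hf.2 _ (by simp) _ (by simp)), k4 x z (hf.2 _ (by simp) _ (by simp)),
      k4 y z (hf.2 _ (by simp) _ (by simp))]
    ring

end Md

end Vale.Agent.P216TE
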