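import Vale.Agent.P216TE.PdB
import Vale.Agent.P216TF.Fin

/-!
# The fundamental class comes from the group
-/

set_option linter.all false

open Set Filter Finsupp Topology

noncomputable section

namespace Vale.Agent.P216TE

open Vale.Agent.P216 Vale.Agent.P216.H126T Vale.Agent.P216M
open Vale.Agent.P216.Sl Vale.Agent.P216.PS
open Vale.Agent.P216.N929 (Fine Coc)

variable {k : Type} [Field k]

namespace Md

variable {G N : Type} [Group G] [MetricSpace N] {m : Md G N}

/-- equivariant approximation by fine chains -/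
structure Ap (j : ℕ) (ε δ : ℝ) (Φ : Ch k (Cv m G) →ₗ[k] Ch k (Cv m G)) : Prop where
  eqv : ∀ g, ∀ c ∈ Sp k (Ln j), Φ (mp (dk g) c) = mp (dk g) (Φ c)
  mem : ∀ c ∈ Sp k (Ln j), Φ c ∈ Sp k fun l => l.length = j ∧ Fine univ ε l
  fix : ∀ c ∈ Sp k fun l => l.length = j ∧ Fine univ δ l, Φ c = c
  cyc : ∀ c ∈ Sp k (Ln (j + 1)), bd (Φ (bd c)) = 0

theorem mp_dk (g h : G) (c : Ch k (Cv m G)) : mp (dk h) (mp (dk g) c) = mp (dk (g * h)) c := by
  rw [mp_mp]; exact congrArg (mp · c) (funext (dk_dk g h))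

theorem mp_dk_one (c : Ch k (Cv m G)) : mp (dk 1) c = c :=
  lin_ext_apply (g := LinearMap.id) (fun l => by
    rw [mp_single, show dk (m := m) (1 : G) = id from funext dk_one, List.map_id]; rfl) c

theorem Ap.step {j : ℕ} {ε ε' δ : ℝ} {Φ : Ch k (Cv m G) →ₗ[k] Ch k (Cv m G)}
    (h : Ap (j + 1) ε δ Φ) (hδ : δ ≤ ε')
    (hf : ∀ c ∈ Sp k fun l : List (Cv m G) => l.length = j + 1 ∧ Fine univ ε l, bd c = 0 →
      ∃ b ∈ Sp k fun l => l.length = j + 2 ∧ Fine univ ε' l, bd b = c) :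
    ∃ Φ' : Ch k (Cv m G) →ₗ[k] Ch k (Cv m G), Ap (j + 2) ε' δ Φ' := by
  have ex : ∀ l : List (Cv m G), ∃ b : Ch k (Cv m G), l.length = j + 2 →
      b ∈ Sp k (fun l => l.length = j + 2 ∧ Fine univ ε' l) ∧ bd b = Φ (bdL l) ∧
        (Fine univ δ l → b = single l 1) := fun l => by
    by_cases hl : l.length = j + 2
    · by_cases h1 : Fine univ δ l
      · refine ⟨_, fun _ => ⟨single_mem ⟨hl, h1.mono subset_rfl hδ⟩ 1, ?_, fun _ => rfl⟩⟩
        rw [bd_single, one_smul, h.fix _ (Sp_mono (fun l' hl' =>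
          ⟨by have := hl'.1; omega, h1.sub hl'.2⟩) (N929.bdL_sub l))]
      · obtain ⟨b, b1, b2⟩ := hf _ (h.mem _ (bdL_mem' hl))
          (by simpa using h.cyc _ (single_mem (P := Ln _) hl 1))
        exact ⟨b, fun _ => ⟨b1, b2, fun e => absurd e h1⟩⟩
    · exact ⟨0, fun e => absurd e hl⟩
  choose Ψ hΨ using ex
  let φ : List (Cv m G) → Ch k (Cv m G) := fun l => match l with
    | [] => 0
    | x :: l => mp (dk x.q) (Ψ ((x :: l).map (dk x.q⁻¹)))
  have e : ∀ l, linearCombination k φ (single l 1) = φ l := fun l => by simp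
  have k1 : ∀ c ∈ Sp k (Ln (j + 2)), bd (linearCombination k φ c) = Φ (bd c) := fun c hc =>
    eq_of_mem (F := bd.comp (linearCombination k φ)) (G := Φ.comp bd) (fun l hl => by
      match l, hl with
      | x :: l, hl =>
        have hl' : (x :: l).length = j + 2 := hl
        rw [LinearMap.comp_apply, LinearMap.comp_apply, e]
        simp only [φ]
        rw [bd_mp, (hΨ _ (by rw [List.length_map, hl'])).2.1, ← one_smul k (bdL _), ← bd_single,
          ← mp_single, bd_mp, h.eqv _ _ (bd_mem' (single_mem hl 1)), mp_dk, inv_mul_cancel,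
          mp_dk_one]) hc
  refine ⟨linearCombination k φ, fun g c hc => ?_, fun c hc => map_mem _ (fun l hl => ?_) hc,
    fun c hc => eq_of_mem (G := LinearMap.id) (fun l hl => ?_) hc, fun c hc => ?_⟩
  · refine eq_of_mem (F := (linearCombination k φ).comp (mp (dk g)))
      (G := (mp (dk g)).comp (linearCombination k φ)) (fun l hl => ?_) hc
    rw [LinearMap.comp_apply, LinearMap.comp_apply, mp_single, e, e]
    match l, hl with
    | x :: l, hl =>
      show mp (dk (x.q * g)) (Ψ (((x :: l).map (dk g)).map (dk (x.q * g)⁻¹))) = _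
      rw [List.map_map, show dk (m := m) (x.q * g)⁻¹ ∘ dk g = dk x.q⁻¹ from funext fun y => by
        rw [Function.comp_apply, dk_dk, mul_inv_rev, mul_inv_cancel_left], ← mp_dk]
  · rw [e]
    match l, hl with
    | x :: l, hl =>
      exact mp_mem (fun _ _ => dist_dk _) (hΨ _ ((List.length_map _).trans hl)).1
  · rw [e]
    match l, hl with
    | x :: l, hl =>
      simp only [φ]
      rw [(hΨ _ ((List.length_map _).trans hl.1)).2.2 (fine_map (fun _ _ => dist_dk _) hl.2),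
        ← mp_single, mp_dk, inv_mul_cancel, mp_dk_one]
      rfl
  · rw [k1 _ (bd_mem' hc), bd_bd, map_zero]

theorem exists_ap (H2 : m.NoH k G 2) {ε : ℝ} (hε : 0 < ε) :
    ∃ δ > 0, ∃ Φ : Ch k (Cv m G) →ₗ[k] Ch k (Cv m G), Ap 4 ε δ Φ := by
  obtain ⟨δ₂, h2, f2⟩ := H2.fill hε
  obtain ⟨δ₁, h1, f1⟩ := (noH_one (k := k) (m := m)).fill h2
  obtain ⟨δ₀, h0, f0⟩ := (noH_zero (k := k) (m := m)).fill h1
  have a0 : Ap (m := m) (k := k) 1 δ₀ (min ε (min δ₂ δ₁)) LinearMap.id :=
    ⟨fun _ _ _ => rfl, fun c hc => Sp_mono (fun l hl => ⟨hl, by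
      obtain ⟨x, rfl⟩ := List.length_eq_one_iff.1 hl
      exact ⟨by simp, by simpa using h0⟩⟩) hc, fun _ _ => rfl, fun c _ => bd_bd c⟩
  obtain ⟨_, a1⟩ := a0.step ((min_le_right _ _).trans (min_le_right _ _)) f0
  obtain ⟨_, a2⟩ := a1.step ((min_le_right _ _).trans (min_le_left _ _)) f1
  exact ⟨_, lt_min hε (lt_min h2 h1), a2.step (min_le_left _ _) f2⟩

theorem top_md [CompactSpace N] (H2 : m.NoH k G 2) (H3 : m.NoH k G 3) {w : List N → k}
    (hw : CocL univ 3 w) (hw0 : ¬ ExL univ 3 w) : ∃ ω : List (Cv m G) → k,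
      (∀ g l, l.length = 4 → ω (l.map (dk g)) = ω l) ∧ (∀ l, l.length = 5 → dl ω l = 0) ∧
      ∀ β : List (Cv m G) → k, (∀ g l, l.length = 3 → β (l.map (dk g)) = β l) →
        ¬ ∀ x, ∃ η > 0, ∀ l, l.length = 4 → (∀ y ∈ l, dist x y < η) → ω l = dl β l := by
  obtain ⟨ε, hε, hw⟩ := hw
  obtain ⟨δ₃, h3, H3⟩ := H3 _ (lt_min hε m.pos)
  obtain ⟨δ, hδ, Φ, hΦ⟩ := exists_ap H2 h3
  refine ⟨fun l => ev (fun l => w (l.map Cv.a)) (Φ (single l 1)), fun g l hl => ?_,
    fun l hl => ?_, fun β hβ h => hw0 ?_⟩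
  · beta_reduce
    rw [← mp_single, hΦ.eqv g _ (single_mem hl 1), ev_mp]
    simp only [List.map_map]
    rfl
  · refine (lin_ext_apply (f := ev fun l => ev (fun l => w (l.map Cv.a)) (Φ (single l 1)))
      (g := (ev fun l => w (l.map Cv.a)).comp Φ) (fun l => by simp) _).trans (H3 _ (fun l hl hf => ?_) _ (hΦ.mem _ (bdL_mem' hl))
        (by simpa using hΦ.cyc _ (single_mem (P := Ln _) hl 1)))
    rw [N929.dl_map]
    exact hw _ (by simpa using hl) ((fine_a (min_le_right _ _) hf).mono subset_rfl (min_le_left _ _))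
  · choose η hη h using h
    obtain ⟨ρ, hρ, hL⟩ := lebesgue_number_lemma_of_metric (s := (univ : Set N)) isCompact_univ
      (c := fun a : N => Metric.ball a (min (η ⟨a, 1⟩) m.r)) (fun _ => Metric.isOpen_ball)
      (fun a _ => mem_iUnion.2 ⟨a, Metric.mem_ball_self (lt_min (hη _) m.pos)⟩)
    refine ⟨fun l => β (m.lL 1 l), by simp, min ρ (min δ m.r), lt_min hρ (lt_min hδ m.pos),
      fun l hl hf => ?_⟩
    have d1 := (min_le_right ρ _).trans (min_le_left δ m.r)
    have d2 := (min_le_right ρ _).trans (min_le_right δ m.r)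
    obtain ⟨b, hb⟩ := List.exists_mem_of_length_pos (l := l) (by omega)
    obtain ⟨a, ha⟩ := hL b (mem_univ b)
    have h1 : ∀ d ∈ l, dist a d < min (η ⟨a, 1⟩) m.r := fun d hd => by
      rw [dist_comm]
      exact ha ((hf.2 d hd b hb).trans_le (min_le_left _ _))
    have h2 : ∀ d ∈ l, dist a d < m.r := fun d hd => (h1 d hd).trans_le (min_le_right _ _)
    have h4 := h ⟨a, 1⟩ (l.map (m.lf a 1)) (by simpa using hl) fun y hy => by
      obtain ⟨d, hd, rfl⟩ := List.mem_map.1 hy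
      exact ((lt_iff (min_le_right _ _)).2 ⟨h1 d hd, rfl⟩).trans_le (min_le_left _ _)
    beta_reduce at h4
    rw [hΦ.fix _ (single_mem ⟨by simpa using hl, (fine_lf d2 hf h2 1).mono subset_rfl d1⟩ 1),
      ev_single, one_mul, List.map_map, show Cv.a ∘ m.lf a (1 : G) = id from rfl, List.map_id,
      ← N929.dl_map] at h4
    rw [h4]
    refine dl_congr fun l' a1 a2 => ?_
    match l', a1, a2 with
    | [], a1, _ => simp [hl] at a1
    | b' :: l', a1, a2 =>
      rw [← hβ (m.c b' a) (m.lL 1 (b' :: l')) (by simpa [lL, hl] using a1), lL, List.map_map]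
      refine congrArg β (List.map_congr_left fun d hd => Cv.ext rfl ?_)
      show m.c d a * 1 = m.c d b' * 1 * m.c b' a
      rw [mul_one, mul_one, m.mul ((hf.2 d (a2 d hd) b' (a2 b' (by simp))).trans_le d2)
        (by rw [dist_comm]; exact h2 d (a2 d hd)) (by rw [dist_comm]; exact h2 _ (a2 _ (by simp)))]

end Md

open Vale.Agent.P216T

/-- **TOP** -/
theorem top : TopGoal := by
  intro G _ hc hn N X _ _ _ _ _ _ P h1 h2
  have hC : InC G N := ⟨X, _, _, P, h1, h2⟩
  haveI := metrizable N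
  letI := TopologicalSpace.metrizableSpaceMetric N
  haveI := hC.conn
  haveI := ChartedSpace.locallyConnectedSpace E3 N
  haveI := P216TF.nvc_inf hn
  obtain ⟨w, -, hw, hw0⟩ := exists_not_exL' (k := ZMod 2)
    (h2.hasSec h1 fun _ => MonoidHom.ext fun _ => (by decide : ∀ a b : (ZMod 2)ˣ, a = b) _ _) (Ch2.ok _) (by norm_num) (locEuc N)
  obtain ⟨m, j, hj, jc, je⟩ := exists_md h2 h1
  obtain ⟨ω, a1, a2, a3⟩ := Md.top_md (m := m) (Md.pd_a (locEuc N) hw hw0 one_le_two rfl
    (Md.noC_one (P216TF.endQ_fin (endGoal G hC.fg hc hn) ⊥ _))).bot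
    (Md.pd_a (locEuc N) hw hw0 (by norm_num) rfl Md.noC_zero) hw hw0
  let e := Equiv.ofBijective j hj
  have ee : ∀ (g : G) x, e.symm (g • x) = Md.dk g⁻¹ (e.symm x) := fun g x => by
    rw [Equiv.symm_apply_eq]
    exact ((je _ _).trans (by rw [inv_inv]; exact congrArg _ (e.apply_symm_apply x))).symm
  refine ⟨fun a b c d => ω [e.symm a, e.symm b, e.symm c, e.symm d], fun g a b c d => ?_,
    fun a b c d f => ?_, fun β hβ h => a3 (c3 fun x y z => β (e x) (e y) (e z))
      (fun g l hl => ?_) fun x => ?_⟩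
  · simp only [ee]
    exact a1 g⁻¹ [_, _, _, _] rfl
  · have := a2 [e.symm a, e.symm b, e.symm c, e.symm d, e.symm f] rfl
    simp only [N929.dl_cons, N929.dl_nil, CharTwo.sub_eq_add] at this
    linear_combination this
  · match l, hl with
    | [x, y, z], _ =>
      show β (j (Md.dk g x)) (j (Md.dk g y)) (j (Md.dk g z)) = _
      rw [je, je, je, hβ]
      rfl
  · obtain ⟨W, hW, h⟩ := h (j x)
    obtain ⟨η, hη, h'⟩ := Metric.mem_nhds_iff.1 (jc.continuousAt hW)
    refine ⟨η, hη, fun l hl hl' => ?_⟩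
    have hm : ∀ y ∈ l, e y ∈ W := fun y hy => h' (Metric.mem_ball'.2 (hl' y hy))
    match l, hl, hm with
    | [a, b, c, d], _, hm =>
      have := h _ (hm a (by simp)) _ (hm b (by simp)) _ (hm c (by simp)) _ (hm d (by simp))
      simp only [e.symm_apply_apply] at this
      rw [this, dl_quad]
      simp only [c3, CharTwo.sub_eq_add]

end Vale.Agent.P216TE
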